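import Vale.Agent.P042.H103.MfBo
import Vale.Agent.P042.H945.State10

/-!
# P042, the [B] side at a cell of a law with the master inequality

`MFld`: the master inequality of a law `mu` on `{1, ..., M}` for all cells and all laws of bounded
density relative to the cell, with families of multi-coordinate entropy terms.

`MFld.dens`: density of the cells; `i1m_core`: the pins of the image of a cell law on a product of
residues; `meik_core`, `bhyp_core`: the entropy inequality and the hypotheses of block [B] for any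
system of coordinates containing the family (coordinates outside the family allowed).
-/

set_option autoImplicit false
set_option linter.unusedSectionVars false

namespace Vale.Agent.P042.H103

open Finset Vale.Agent.P042.H945 Vale.Agent.P042.H858 Vale.Agent.P042.H461 Vale.Agent.P042.H416
  Vale.Agent.P042.H365 Vale.Agent.P042.H678 Vale.Agent.P042.H742
open Vale.Agent.P042.H779 (marg m1)
open Vale.Agent.P042.H599 (cm Law bwt bwt_nonneg FamOk fI fc mem_fI fc_nonneg)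

/-! ### coordinates containing a family -/

section gen

variable {ι : Type*} [Fintype ι] [DecidableEq ι] {q : ι → ℕ} {Wf : Finset ℕ} {D : ℕ} {t : ℕ → ℝ}
  {T : ι → ℝ}

/-- the coordinates of the family -/
def cs (q : ι → ℕ) (Wf : Finset ℕ) : Finset ι := univ.filter fun i => q i ∈ Wf

theorem mem_cs {i : ι} : i ∈ cs q Wf ↔ q i ∈ Wf := by
  unfold cs
  simp

theorem img_cs (hcov : ∀ p ∈ Wf, p.Coprime D → ∃ i, q i = p) (hqD : ∀ i, (q i).Coprime D) :
    (cs q Wf).image q = WD Wf D := by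
  ext p
  rw [Finset.mem_image, Finset.mem_filter]
  constructor
  · rintro ⟨i, hi, rfl⟩
    exact ⟨mem_cs.1 hi, hqD i⟩
  · rintro ⟨h1, h2⟩
    obtain ⟨i, rfl⟩ := hcov p h1 h2
    exact ⟨i, mem_cs.2 h1, rfl⟩

theorem bw_ext0 (hT : ∀ i, T i = if q i ∈ Wf then t (q i) else 0) {R : Finset ι}
    (hR : ¬ R ⊆ cs q Wf) : bw T R = 0 := by
  rw [Finset.not_subset] at hR
  obtain ⟨i, hi, hi2⟩ := hR
  unfold bw
  have h1 : T i = 0 := by
    rw [hT, if_neg fun h => hi2 (mem_cs.2 h)]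
  rw [Finset.prod_eq_zero hi h1, zero_mul]

theorem bw_ext (hqi : Function.Injective q) (hcov : ∀ p ∈ Wf, p.Coprime D → ∃ i, q i = p)
    (hqD : ∀ i, (q i).Coprime D) (hT : ∀ i, T i = if q i ∈ Wf then t (q i) else 0)
    {R : Finset ι} (hR : R ⊆ cs q Wf) : bw T R = bwt t (WD Wf D) (R.image q) := by
  unfold bw bwt
  rw [Finset.prod_image fun i _ j _ h => hqi h]
  congr 1
  · refine Finset.prod_congr rfl fun i hi => ?_
    rw [hT, if_pos (mem_cs.1 (hR hi))]
  · have h1 : WD Wf D \ R.image q = (cs q Wf \ R).image q := by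
      rw [← img_cs hcov hqD, Finset.image_sdiff _ _ hqi]
    rw [h1, Finset.prod_image fun i _ j _ h => hqi h]
    have h2 : cs q Wf \ R ⊆ Rᶜ := fun i hi => Finset.mem_compl.2 (Finset.mem_sdiff.1 hi).2
    rw [← Finset.prod_subset h2 fun i hi hi2 => ?_]
    · refine Finset.prod_congr rfl fun i hi => ?_
      rw [hT, if_pos (mem_cs.1 (Finset.mem_sdiff.1 hi).1)]
    · have h3 : q i ∉ Wf := fun h => hi2 (Finset.mem_sdiff.2 ⟨mem_cs.2 h, Finset.mem_compl.1 hi⟩)
      rw [hT, if_neg h3, sub_zero]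

theorem sum_ext (hqi : Function.Injective q) (hcov : ∀ p ∈ Wf, p.Coprime D → ∃ i, q i = p)
    (hqD : ∀ i, (q i).Coprime D) (hT : ∀ i, T i = if q i ∈ Wf then t (q i) else 0)
    (G : Finset ℕ → ℝ) :
    ∑ R : Finset ι, bw T R * G (R.image q) =
      ∑ R ∈ (WD Wf D).powerset, bwt t (WD Wf D) R * G R := by
  have h1 : ∑ R : Finset ι, bw T R * G (R.image q) =
      ∑ R ∈ (cs q Wf).powerset, bwt t (WD Wf D) (R.image q) * G (R.image q) := by
    symm
    rw [← Finset.sum_subset (Finset.subset_univ (cs q Wf).powerset) fun R _ hR => ?_]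
    · exact Finset.sum_congr rfl fun R hR => by
        rw [bw_ext hqi hcov hqD hT (Finset.mem_powerset.1 hR)]
    · rw [bw_ext0 hT fun h => hR (Finset.mem_powerset.2 h), zero_mul]
  rw [h1]
  refine Finset.sum_nbij' (fun R => R.image q) (fun R => univ.filter fun i => q i ∈ R) ?_ ?_ ?_ ?_
    fun R _ => rfl
  · intro R hR
    rw [Finset.mem_powerset, ← img_cs hcov hqD]
    exact Finset.image_subset_image (Finset.mem_powerset.1 hR)
  · intro R hR
    rw [Finset.mem_powerset] at hR ⊢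
    intro i hi
    rw [Finset.mem_filter] at hi
    exact mem_cs.2 (Finset.mem_filter.1 (hR hi.2)).1
  · intro R _
    ext i
    simp only [Finset.mem_filter, Finset.mem_univ, true_and, Finset.mem_image]
    constructor
    · rintro ⟨j, hj, hji⟩
      rwa [← hqi hji]
    · exact fun h => ⟨i, h, rfl⟩
  · intro R hR
    rw [Finset.mem_powerset] at hR
    ext p
    simp only [Finset.mem_filter, Finset.mem_univ, true_and, Finset.mem_image]
    constructor
    · rintro ⟨i, hi, rfl⟩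
      exact hi
    · intro hp
      have h2 := hR hp
      rw [← img_cs hcov hqD, Finset.mem_image] at h2
      obtain ⟨i, _, rfl⟩ := h2
      exact ⟨i, hp, rfl⟩

variable {M : ℕ}

/-- the family inequality for a system of coordinates containing the family -/
theorem fam_gen {mu nu0 y : ℕ → ℝ} {B : ℕ} {C0 ac : ℝ}
    (hqi : Function.Injective q) (hcov : ∀ p ∈ Wf, p.Coprime D → ∃ i, q i = p)
    (hqD : ∀ i, (q i).Coprime D) (hT : ∀ i, T i = if q i ∈ Wf then t (q i) else 0)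
    (hW0 : ∀ p ∈ Wf, 0 < p) (ht0 : ∀ p ∈ Wf, 0 ≤ t p) (ht1 : ∀ p ∈ Wf, t p ≤ 1)
    (hD : 1 / 2 ≤ ∏ p ∈ Wf with ¬ p.Coprime D, (1 - t p)) (hC0 : 0 < C0)
    (hmu : Law mu 1 M) (hy : Law y 1 M) (hac' : Vale.Agent.P042.H945.AC y nu0 M)
    (hac0 : Vale.Agent.P042.H945.AC nu0 mu M)
    (H : C0 * ∑ R ∈ Wf.powerset with ∏ p ∈ R, p ≤ B ∧ (∏ p ∈ R, p).Coprime D,
      bwt t Wf R * klc y mu M (∏ p ∈ R, p) ≤ kl2 y nu0 M + ac) :
    ∑ R : Finset ι with ∏ i ∈ R, q i ≤ B, bw T R * klr y mu 1 M (∏ i ∈ R, q i) ≤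
      2 / C0 * (kli y nu0 1 M + ac) := by
  refine le_trans (le_of_eq ?_) (fam_sub hW0 ht0 ht1 hD hC0 hmu hy hac' hac0 H)
  have hprod : ∀ R : Finset ι, ∏ i ∈ R, q i = ∏ p ∈ R.image q, p := fun R => by
    rw [Finset.prod_image fun i _ j _ h => hqi h]
  rw [Finset.sum_filter, Finset.sum_filter]
  have e1 : ∑ R : Finset ι, (if ∏ i ∈ R, q i ≤ B then
      bw T R * klr y mu 1 M (∏ i ∈ R, q i) else 0) =
      ∑ R : Finset ι, bw T R * (fun S : Finset ℕ => if ∏ p ∈ S, p ≤ B then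
        klr y mu 1 M (∏ p ∈ S, p) else 0) (R.image q) := by
    refine Finset.sum_congr rfl fun R _ => ?_
    rw [hprod]
    simp only
    split_ifs
    · rfl
    · rw [mul_zero]
  rw [e1, sum_ext hqi hcov hqD hT (fun S : Finset ℕ => if ∏ p ∈ S, p ≤ B then
    klr y mu 1 M (∏ p ∈ S, p) else 0), ← sum_im (W := WD Wf D)]
  refine Finset.sum_congr rfl fun R _ => ?_
  rw [bw_im t R, prod_im]
  simp only
  split_ifs
  · rfl
  · rw [mul_zero]

/-- the mass of the large subsets -/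
theorem tail_gen {B : ℕ} {q0 : ℝ}
    (hqi : Function.Injective q) (hcov : ∀ p ∈ Wf, p.Coprime D → ∃ i, q i = p)
    (hqD : ∀ i, (q i).Coprime D) (hT : ∀ i, T i = if q i ∈ Wf then t (q i) else 0)
    (hW0 : ∀ p ∈ Wf, 0 < p) (ht0 : ∀ p ∈ Wf, 0 ≤ t p) (ht1 : ∀ p ∈ Wf, t p ≤ 1)
    (hq0 : ∑ R ∈ Wf.powerset with ¬ ∏ p ∈ R, p ≤ B, bwt t Wf R ≤ q0) :
    ∑ R : Finset ι with ¬ ∏ i ∈ R, q i ≤ B, bw T R ≤ q0 := by
  refine le_trans (le_of_eq ?_) (tail_sub (D := D) hW0 ht0 ht1 hq0)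
  have hprod : ∀ R : Finset ι, ∏ i ∈ R, q i = ∏ p ∈ R.image q, p := fun R => by
    rw [Finset.prod_image fun i _ j _ h => hqi h]
  rw [Finset.sum_filter, Finset.sum_filter]
  have e1 : ∑ R : Finset ι, (if ¬ ∏ i ∈ R, q i ≤ B then bw T R else 0) =
      ∑ R : Finset ι, bw T R * (fun S : Finset ℕ => if ∏ p ∈ S, p ≤ B then (0 : ℝ) else 1)
        (R.image q) := by
    refine Finset.sum_congr rfl fun R _ => ?_
    rw [hprod]
    simp only
    split_ifs <;> simp
  rw [e1, sum_ext hqi hcov hqD hT (fun S : Finset ℕ => if ∏ p ∈ S, p ≤ B then (0 : ℝ) else 1),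
    ← sum_im (W := WD Wf D)]
  refine Finset.sum_congr rfl fun R _ => ?_
  rw [bw_im t R, prod_im]
  simp only
  split_ifs <;> simp

end gen

/-! ### the master inequality -/

/-- **the master inequality of a law**, all cells, all laws of bounded density relative to the
cell; `co D u v` = the cost of the cell -/
def MFld {κ : Type} (f : Vale.Agent.P042.H599.Fam κ) (W : Finset ℕ) (c : ℕ → ℝ) (Dm : ℝ)
    (co : ℕ → ℕ → ℕ → ℝ) (M : ℕ) (mu : ℕ → ℝ) : Prop :=
  ∀ (D w u v : ℕ) (y : ℕ → ℝ), 1 ≤ D → (D : ℝ) ≤ Real.exp Dm → 1 ≤ u → v ≤ M →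
    (M : ℝ) ≤ Real.exp Dm * ((v + 1 - u : ℕ) : ℝ) → 0 < ms mu M (cl D w u v) →
    Real.exp (-Dm) * ((v + 1 - u : ℕ) : ℝ) ≤ D * ms mu M (cl D w u v) * M →
    Law y 1 M → (∀ n, 0 ≤ y n) →
    (∀ n, y n ≤ Real.exp Dm * Vale.Agent.P042.H945.rst mu M (cl D w u v) n) →
    Real.log (D * ms mu M (cl D w u v) * M / ((v + 1 - u : ℕ) : ℝ)) +
      ∑ p ∈ W with Nat.Coprime p D, c p * klc y mu M p +
      ∑ i ∈ fI f with Nat.Coprime (∏ p ∈ i.2, p) D, fc f i * klc y mu M (∏ p ∈ i.2, p) ≤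
    kl2 y (Vale.Agent.P042.H945.rst mu M (cl D w u v)) M + co D u v

section core

variable {κ : Type} {f : Vale.Agent.P042.H599.Fam κ} {W : Finset ℕ} {c : ℕ → ℝ} {Dm : ℝ}
  {co : ℕ → ℕ → ℕ → ℝ} {M : ℕ} {mu : ℕ → ℝ} {Mm : ℕ}

theorem rst_nonneg (hmu0 : ∀ n, 0 ≤ mu n) {S : ℕ → Prop} (h : 0 ≤ ms mu M S) (n : ℕ) :
    0 ≤ Vale.Agent.P042.H945.rst mu M S n := by
  by_cases h1 : S n
  · rw [rst_val h1]; exact div_nonneg (hmu0 n) h
  · rw [rst_val0 h1]

theorem ac_rst {S : ℕ → Prop} :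
    Vale.Agent.P042.H945.AC (Vale.Agent.P042.H945.rst mu M S) mu M := fun i _ h0 => by
  by_contra h
  exact (rst_ne h).2 h0

/-- the terms on the left are nonnegative, and one family is at most the sum of all terms -/
theorem terms_nonneg (hf : FamOk f Mm) (hc : ∀ p ∈ W, 0 < p ∧ 0 ≤ c p) (hmu : Law mu 1 M)
    {y : ℕ → ℝ} (hy : Law y 1 M) (hac : Vale.Agent.P042.H945.AC y mu M) (D : ℕ) :
    0 ≤ ∑ p ∈ W with Nat.Coprime p D, c p * klc y mu M p ∧
    0 ≤ ∑ i ∈ fI f with Nat.Coprime (∏ p ∈ i.2, p) D, fc f i * klc y mu M (∏ p ∈ i.2, p) ∧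
    ∀ k ∈ f.F, f.ω k * f.K k * ∑ R ∈ (f.W k).powerset with
        ∏ p ∈ R, p ≤ f.B k ∧ (∏ p ∈ R, p).Coprime D,
          bwt (f.t k) (f.W k) R * klc y mu M (∏ p ∈ R, p) ≤
      ∑ i ∈ fI f with Nat.Coprime (∏ p ∈ i.2, p) D, fc f i * klc y mu M (∏ p ∈ i.2, p) := by
  classical
  have hnn : ∀ i ∈ fI f, 0 ≤ fc f i * klc y mu M (∏ p ∈ i.2, p) := fun i hi => by
    have h1 := mem_fI.1 hi
    exact mul_nonneg (fc_nonneg hf hi)
      (klc_nonneg hy hmu hac (Finset.prod_pos fun p hp => hf.hW _ h1.1 p (h1.2.1 hp)))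
  refine ⟨?_, ?_, ?_⟩
  · refine Finset.sum_nonneg fun p hp => ?_
    obtain ⟨h1, h2⟩ := hc p (Finset.mem_filter.1 hp).1
    exact mul_nonneg h2 (klc_nonneg hy hmu hac h1)
  · exact Finset.sum_nonneg fun i hi => hnn i (Finset.mem_filter.1 hi).1
  · intro k hk
    rw [Finset.mul_sum]
    have hinj : Set.InjOn (fun R : Finset ℕ => (⟨k, R⟩ : Σ _ : κ, Finset ℕ))
        ((f.W k).powerset.filter fun R => ∏ p ∈ R, p ≤ f.B k ∧ (∏ p ∈ R, p).Coprime D) := by
      intro R _ R' _ h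
      simpa using h
    have h1 : ∑ R ∈ (f.W k).powerset with ∏ p ∈ R, p ≤ f.B k ∧ (∏ p ∈ R, p).Coprime D,
        f.ω k * f.K k * (bwt (f.t k) (f.W k) R * klc y mu M (∏ p ∈ R, p)) =
        ∑ i ∈ ((f.W k).powerset.filter fun R => ∏ p ∈ R, p ≤ f.B k ∧
          (∏ p ∈ R, p).Coprime D).image (fun R : Finset ℕ => (⟨k, R⟩ : Σ _ : κ, Finset ℕ)),
          fc f i * klc y mu M (∏ p ∈ i.2, p) := by
      rw [Finset.sum_image hinj]
      refine Finset.sum_congr rfl fun R _ => ?_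
      unfold Vale.Agent.P042.H599.fc
      simp only
      ring
    rw [h1]
    refine Finset.sum_le_sum_of_subset_of_nonneg ?_ fun i hi _ => hnn i (Finset.mem_filter.1 hi).1
    intro i hi
    obtain ⟨R, hR, rfl⟩ := Finset.mem_image.1 hi
    obtain ⟨h2, h3, h4⟩ := Finset.mem_filter.1 hR
    exact Finset.mem_filter.2 ⟨mem_fI.2 ⟨hk, Finset.mem_powerset.1 h2, h3⟩, h4⟩

theorem V_pos (hmu : Law mu 1 M) {u v : ℕ}
    (hMV : (M : ℝ) ≤ Real.exp Dm * ((v + 1 - u : ℕ) : ℝ)) : (0 : ℝ) < ((v + 1 - u : ℕ) : ℝ) := by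
  have hMp : (0 : ℝ) < M := by exact_mod_cast hmu.pos
  by_contra h
  have h1 : ((v + 1 - u : ℕ) : ℝ) ≤ 0 := not_lt.1 h
  have h2 := Real.exp_pos Dm
  nlinarith

/-- **the density of the cells** -/
theorem MFld.dens (h : MFld f W c Dm co M mu) (hf : FamOk f Mm)
    (hc : ∀ p ∈ W, 0 < p ∧ 0 ≤ c p) (hmu : Law mu 1 M) (hmu0 : ∀ n, 0 ≤ mu n) (hDm : 0 ≤ Dm)
    {D w u v : ℕ} (hco : 0 ≤ co D u v) (hD : 1 ≤ D) (hDD : (D : ℝ) ≤ Real.exp Dm) (hu : 1 ≤ u)
    (hv : v ≤ M) (hMV : (M : ℝ) ≤ Real.exp Dm * ((v + 1 - u : ℕ) : ℝ)) :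
    D * ms mu M (cl D w u v) * M ≤ ((v + 1 - u : ℕ) : ℝ) * Real.exp (co D u v) := by
  have hV := V_pos hmu hMV
  have hE : 1 ≤ Real.exp (co D u v) := Real.one_le_exp hco
  have hm0 := ms_nonneg hmu (cl D w u v)
  rcases hm0.eq_or_lt with h0 | h0
  · rw [← h0]; simp; positivity
  by_cases hth : Real.exp (-Dm) * ((v + 1 - u : ℕ) : ℝ) ≤ D * ms mu M (cl D w u v) * M
  · have hlaw := rst_law hmu h0
    have hr0 := rst_nonneg hmu0 hm0
    have h1 := h D w u v _ hD hDD hu hv hMV h0 hth hlaw hr0 fun n => by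
      have h2 := Real.one_le_exp hDm
      have h3 := hr0 n
      nlinarith
    obtain ⟨h2, h3, _⟩ := terms_nonneg hf hc hmu hlaw (ac_rst (S := cl D w u v)) D
    have h5 : kl2 (Vale.Agent.P042.H945.rst mu M (cl D w u v))
        (Vale.Agent.P042.H945.rst mu M (cl D w u v)) M = 0 := by
      unfold kl2 SM
      exact Finset.sum_eq_zero fun i _ => by simp
    rw [h5] at h1
    have hMp : (0 : ℝ) < M := by exact_mod_cast hmu.pos
    have hDp : (0 : ℝ) < D := by exact_mod_cast hD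
    have h6 : Real.log (D * ms mu M (cl D w u v) * M / ((v + 1 - u : ℕ) : ℝ)) ≤ co D u v := by
      linarith
    rw [Real.log_le_iff_le_exp (by positivity), div_le_iff₀ hV] at h6
    linarith
  · have h1 : Real.exp (-Dm) ≤ 1 := Real.exp_le_one_iff.2 (by linarith)
    have h2 := not_le.1 hth
    nlinarith

/-- **the family inequality at a thick cell** -/
theorem MFld.fam (h : MFld f W c Dm co M mu) (hf : FamOk f Mm)
    (hc : ∀ p ∈ W, 0 < p ∧ 0 ≤ c p) (hmu : Law mu 1 M) (hmu0 : ∀ n, 0 ≤ mu n)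
    {D w u v : ℕ} (hD : 1 ≤ D) (hDD : (D : ℝ) ≤ Real.exp Dm) (hu : 1 ≤ u)
    (hv : v ≤ M) (hMV : (M : ℝ) ≤ Real.exp Dm * ((v + 1 - u : ℕ) : ℝ)) {a0 : ℝ} (ha0 : a0 ≤ Dm)
    (hthick : Real.exp (-a0) * ((v + 1 - u : ℕ) : ℝ) ≤ D * ms mu M (cl D w u v) * M)
    {k : κ} (hk : k ∈ f.F) {K : ℝ} (hK : K ≤ Real.exp Dm) {y : ℕ → ℝ}
    (hy : Law y 1 M)
    (hle : ∀ i < M, y (1 + i) ≤ K * Vale.Agent.P042.H945.rst mu M (cl D w u v) (1 + i)) :
    f.ω k * f.K k * ∑ R ∈ (f.W k).powerset with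
        ∏ p ∈ R, p ≤ f.B k ∧ (∏ p ∈ R, p).Coprime D,
          bwt (f.t k) (f.W k) R * klc y mu M (∏ p ∈ R, p) ≤
      kl2 y (Vale.Agent.P042.H945.rst mu M (cl D w u v)) M + (a0 + co D u v) := by
  have hV := V_pos hmu hMV
  have hMp : (0 : ℝ) < M := by exact_mod_cast hmu.pos
  have hDp : (0 : ℝ) < D := by exact_mod_cast hD
  have hm0 := ms_nonneg hmu (cl D w u v)
  have hmp : 0 < ms mu M (cl D w u v) := by
    rcases hm0.eq_or_lt with h0 | h0
    · rw [← h0] at hthick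
      have : 0 < Real.exp (-a0) * ((v + 1 - u : ℕ) : ℝ) := by positivity
      simp at hthick
      linarith
    · exact h0
  have hr0 := rst_nonneg (M := M) hmu0 hm0
  have hcutn : ∀ n, cut M y n = if 1 ≤ n ∧ n ≤ M then y n else 0 := fun n => rfl
  have hc0 : ∀ n, 0 ≤ cut M y n := fun n => by
    rw [hcutn]
    split_ifs with h1
    · obtain ⟨i, rfl⟩ : ∃ i, n = 1 + i := ⟨n - 1, by omega⟩
      exact hy.nonneg i (by omega)
    · exact le_rfl
  have hcK : ∀ n, cut M y n ≤ Real.exp Dm * Vale.Agent.P042.H945.rst mu M (cl D w u v) n := by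
    intro n
    rw [hcutn]
    split_ifs with h1
    · obtain ⟨i, rfl⟩ : ∃ i, n = 1 + i := ⟨n - 1, by omega⟩
      refine (hle i (by omega)).trans ?_
      exact mul_le_mul_of_nonneg_right hK (hr0 _)
    · exact mul_nonneg (Real.exp_pos _).le (hr0 _)
  have hth : Real.exp (-Dm) * ((v + 1 - u : ℕ) : ℝ) ≤ D * ms mu M (cl D w u v) * M := by
    refine le_trans (mul_le_mul_of_nonneg_right ?_ hV.le) hthick
    exact Real.exp_le_exp.2 (by linarith)
  have h1 := h D w u v _ hD hDD hu hv hMV hmp hth (law_cut hy) hc0 hcK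
  have hac : Vale.Agent.P042.H945.AC (cut M y) mu M := by
    refine ac_trans (ac_of_le (law_cut hy) fun i _ => hcK _) ac_rst
  obtain ⟨h2, _, h3⟩ := terms_nonneg hf hc hmu (law_cut hy) hac D
  have h4 := h3 k hk
  have hklc : ∀ m, klc (cut M y) mu M m = klc y mu M m := fun m => by
    unfold klc
    exact Finset.sum_congr rfl fun r _ => by rw [cm_cut]
  have hkl2 : kl2 (cut M y) (Vale.Agent.P042.H945.rst mu M (cl D w u v)) M =
      kl2 y (Vale.Agent.P042.H945.rst mu M (cl D w u v)) M := by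
    unfold kl2 SM
    exact Finset.sum_congr rfl fun i hi => by
      simp only [cut_add (mem_range.1 hi)]
  simp only [hklc, hkl2] at h1 h2 h4
  have h5 : -a0 ≤ Real.log (D * ms mu M (cl D w u v) * M / ((v + 1 - u : ℕ) : ℝ)) := by
    rw [Real.le_log_iff_exp_le (by positivity), le_div_iff₀ hV]
    exact hthick
  linarith

/-! ### pins -/

variable {ι : Type*} [Fintype ι] [DecidableEq ι] {V : ι → Type*} [∀ i, Fintype (V i)]
  [∀ i, DecidableEq (V i)] {q : ι → ℕ} {r : ∀ i, ℕ → V i}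

theorem marg_pf (nu0 : ℕ → ℝ) (A : Finset ι) (x : ∀ i, V i) :
    marg (pf r nu0 1 M) A x = ∑ j : Fin M, if (∀ i ∈ A, r i (1 + j) = x i) then nu0 (1 + j)
      else 0 := by
  have h1 := sum_push (pt r 1 M) (iv nu0 1 M) fun y => if ∀ i ∈ A, y i = x i then 1 else 0
  unfold marg pf
  have h2 : ∀ y, (if ∀ i ∈ A, y i = x i then push (pt r 1 M) (iv nu0 1 M) y else 0) =
      push (pt r 1 M) (iv nu0 1 M) y * (if ∀ i ∈ A, y i = x i then 1 else 0) := fun y => by
    split_ifs <;> simp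
  rw [Finset.sum_congr rfl fun y _ => h2 y, h1]
  refine Finset.sum_congr rfl fun j _ => ?_
  unfold pt iv
  split_ifs <;> simp

/-- the mass of the pinned points of a cell law -/
theorem marg_cell (hc : Pairwise fun i j => (q i).Coprime (q j))
    (hr : ∀ i n m, r i n = r i m ↔ n ≡ m [MOD q i]) {D w u v : ℕ} (hqD : ∀ i, (q i).Coprime D)
    (A : Finset ι) (x : ∀ i, V i) {j0 : ℕ} (hj0 : cl D w u v (1 + j0))
    (hx : ∀ i ∈ A, r i (1 + j0) = x i) :
    marg (pf r (Vale.Agent.P042.H945.rst mu M (cl D w u v)) 1 M) A x =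
      ms mu M (cl (D * ∏ i ∈ A, q i) ((1 + j0) % (D * ∏ i ∈ A, q i)) u v) /
        ms mu M (cl D w u v) := by
  classical
  have hcop : Nat.Coprime D (∏ i ∈ A, q i) :=
    Nat.Coprime.prod_right fun i _ => (hqD i).symm
  rw [marg_pf]
  have hms : ms mu M (cl (D * ∏ i ∈ A, q i) ((1 + j0) % (D * ∏ i ∈ A, q i)) u v) =
      ∑ j : Fin M, if cl (D * ∏ i ∈ A, q i) ((1 + j0) % (D * ∏ i ∈ A, q i)) u v (1 + j) then
        mu (1 + j) else 0 := by
    unfold ms SM
    rw [Finset.sum_range]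
  rw [hms, Finset.sum_div]
  refine Finset.sum_congr rfl fun j _ => ?_
  have key : (cl (D * ∏ i ∈ A, q i) ((1 + j0) % (D * ∏ i ∈ A, q i)) u v (1 + j)) ↔
      (cl D w u v (1 + j) ∧ ∀ i ∈ A, r i (1 + j) = x i) := by
    have h1 : (∀ i ∈ A, r i (1 + j) = x i) ↔
        (1 + (j : ℕ)) % (∏ i ∈ A, q i) = (1 + j0) % (∏ i ∈ A, q i) := by
      rw [prod_modEq hc]
      constructor
      · intro h i hi
        exact (hr i _ _).1 ((h i hi).trans (hx i hi).symm)
      · intro h i hi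
        exact ((hr i _ _).2 (h i hi)).trans (hx i hi)
    have h2 : (1 + (j : ℕ)) % (D * ∏ i ∈ A, q i) = (1 + j0) % (D * ∏ i ∈ A, q i) ↔
        (1 + (j : ℕ)) % D = (1 + j0) % D ∧
          (1 + (j : ℕ)) % (∏ i ∈ A, q i) = (1 + j0) % (∏ i ∈ A, q i) :=
      (Nat.modEq_and_modEq_iff_modEq_mul hcop).symm
    obtain ⟨_, _, h3⟩ := hj0
    unfold cl
    rw [h1, h2, h3]
    tauto
  by_cases h : cl D w u v (1 + j) ∧ ∀ i ∈ A, r i (1 + j) = x i
  · rw [if_pos h.2, if_pos (key.2 h), rst_val h.1]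
  · rw [if_neg fun h1 => h (key.1 h1), zero_div]
    by_cases h2 : ∀ i ∈ A, r i (1 + j) = x i
    · rw [if_pos h2, rst_val0 fun h3 => h ⟨h3, h2⟩]
    · rw [if_neg h2]

/-- **the pins of the image of a cell law** -/
theorem MFld.i1m (h : MFld f W c Dm co M mu) (hf : FamOk f Mm)
    (hcW : ∀ p ∈ W, 0 < p ∧ 0 ≤ c p) (hmu : Law mu 1 M) (hmu0 : ∀ n, 0 ≤ mu n) (hDm : 0 ≤ Dm)
    (hq : ∀ i, 0 < q i) (hc : Pairwise fun i j => (q i).Coprime (q j))
    (hr : ∀ i n m, r i n = r i m ↔ n ≡ m [MOD q i])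
    {D w u v : ℕ} (hD : 1 ≤ D) (hu : 1 ≤ u)
    (hv : v ≤ M) (hMV : (M : ℝ) ≤ Real.exp Dm * ((v + 1 - u : ℕ) : ℝ))
    (hqD : ∀ i, (q i).Coprime D) {Dd : ℕ} {cq : ι → ℝ}
    (hco : ∀ A : Finset ι, A.card ≤ Dd → 0 ≤ co (D * ∏ i ∈ A, q i) u v ∧
      co (D * ∏ i ∈ A, q i) u v ≤ co D u v + ∑ i ∈ A, cq i)
    {a0 a1 : ℝ} (ha0 : 0 ≤ a0) (ha1 : a0 + co D u v ≤ a1)
    (hthick : Real.exp (-a0) * ((v + 1 - u : ℕ) : ℝ) ≤ D * ms mu M (cl D w u v) * M)
    {lam : ∀ i, V i → ℝ} (hlam0 : ∀ i a, 0 ≤ lam i a) {Aa Mi : ι → ℝ}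
    (hAa : ∀ i n, Vale.Agent.P042.H945.rst mu M (cl D w u v) n ≠ 0 →
      1 ≤ Aa i * (q i * lam i (r i n)))
    (hMi : ∀ i, Aa i * Real.exp (a1 + cq i) ≤ Mi i)
    (hDd : ∀ A : Finset ι, A.card ≤ Dd → ((D * ∏ i ∈ A, q i : ℕ) : ℝ) ≤ Real.exp Dm) :
    I1M lam Mi Dd (pf r (Vale.Agent.P042.H945.rst mu M (cl D w u v)) 1 M) := by
  intro A hA x
  have hV := V_pos hmu hMV
  have hMp : (0 : ℝ) < M := by exact_mod_cast hmu.pos
  have hDp : (0 : ℝ) < D := by exact_mod_cast hD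
  have ha10 : 0 ≤ a1 := by
    have h1 := (hco ∅ (Nat.zero_le _)).1
    rw [Finset.prod_empty, mul_one] at h1
    linarith
  have hm0 := ms_nonneg hmu (cl D w u v)
  have hmp : 0 < ms mu M (cl D w u v) := by
    rcases hm0.eq_or_lt with h0 | h0
    · rw [← h0] at hthick
      have : 0 < Real.exp (-a0) * ((v + 1 - u : ℕ) : ℝ) := by positivity
      simp at hthick
      linarith
    · exact h0
  have hlaw := rst_law hmu hmp
  by_cases hz : marg (pf r (Vale.Agent.P042.H945.rst mu M (cl D w u v)) 1 M) A x = 0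
  · rw [hz]
    -- the right side is nonnegative: the constants `Aa` are positive on the support
    have hex : ∃ n, Vale.Agent.P042.H945.rst mu M (cl D w u v) n ≠ 0 := by
      by_contra hcon
      push Not at hcon
      have h1 := hlaw.sum
      rw [Finset.sum_eq_zero fun i _ => hcon _] at h1
      exact zero_ne_one h1
    obtain ⟨n, hn⟩ := hex
    refine mul_nonneg (Finset.prod_nonneg fun i _ => ?_) (Finset.prod_nonneg fun i _ => hlam0 i _)
    have h1 := hAa i n hn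
    have h2 : 0 ≤ (q i : ℝ) * lam i (r i n) := mul_nonneg (Nat.cast_nonneg _) (hlam0 _ _)
    have h3 : 0 ≤ Aa i := by
      by_contra h4
      have := mul_nonneg (not_le.1 h4 |>.le |> neg_nonneg.2) h2
      linarith
    exact le_trans (by positivity) (hMi i)
  · -- a point of the pinned cell
    obtain ⟨j0, hj0, hx0⟩ : ∃ j0 : Fin M,
        Vale.Agent.P042.H945.rst mu M (cl D w u v) (1 + j0) ≠ 0 ∧
          ∀ i ∈ A, r i (1 + j0) = x i := by
      by_contra hcon
      push Not at hcon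
      refine hz ?_
      rw [marg_pf]
      refine Finset.sum_eq_zero fun j _ => ?_
      by_cases h1 : ∀ i ∈ A, r i (1 + j) = x i
      · rw [if_pos h1]
        by_contra h2
        obtain ⟨i, hi, h3⟩ := hcon j h2
        exact h3 (h1 i hi)
      · rw [if_neg h1]
    have hcl := (rst_ne hj0).1
    rw [marg_cell hc hr hqD A x hcl hx0]
    set P : ℕ := ∏ i ∈ A, q i with hP
    have hPpos : 0 < P := Finset.prod_pos fun i _ => hq i
    have hPp : (0 : ℝ) < P := by exact_mod_cast hPpos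
    have hDP : 1 ≤ D * P := Nat.one_le_iff_ne_zero.2 (by positivity)
    obtain ⟨hc1, hc2⟩ := hco A hA
    have h1 := h.dens hf hcW hmu hmu0 hDm (w := (1 + j0) % (D * P)) hc1 hDP (hDd A hA) hu hv hMV
    rcases A.eq_empty_or_nonempty with hA0 | hA0
    · -- no pins
      subst hA0
      have hP1 : P = 1 := by rw [hP, Finset.prod_empty]
      have h2 : ms mu M (cl (D * P) ((1 + j0) % (D * P)) u v) = ms mu M (cl D w u v) := by
        rw [hP1, mul_one, hcl.2.2]
      rw [h2, div_self hmp.ne', Finset.prod_empty]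
      unfold lw
      rw [Finset.prod_empty, one_mul]
    · have h2 : ms mu M (cl (D * P) ((1 + j0) % (D * P)) u v) / ms mu M (cl D w u v) ≤
          Real.exp (a1 + ∑ i ∈ A, cq i) / P := by
        rw [div_le_div_iff₀ hmp hPp]
        have h3 : ((D * P : ℕ) : ℝ) * ms mu M (cl (D * P) ((1 + j0) % (D * P)) u v) * M ≤
            (D * ms mu M (cl D w u v) * M) *
              (Real.exp a0 * Real.exp (co (D * P) u v)) := by
          refine h1.trans ?_
          have h4 : ((v + 1 - u : ℕ) : ℝ) ≤ (D * ms mu M (cl D w u v) * M) * Real.exp a0 := by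
            have h5 := mul_le_mul_of_nonneg_right hthick (Real.exp_pos a0).le
            have h6 : Real.exp (-a0) * ((v + 1 - u : ℕ) : ℝ) * Real.exp a0 =
                ((v + 1 - u : ℕ) : ℝ) := by
              rw [mul_right_comm, ← Real.exp_add, neg_add_cancel, Real.exp_zero, one_mul]
            rw [h6] at h5
            exact h5
          have h5 := mul_le_mul_of_nonneg_right h4
            (Real.exp_pos (co (D * P) u v)).le
          linarith
        have h4 : Real.exp a0 * Real.exp (co (D * P) u v) ≤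
            Real.exp (a1 + ∑ i ∈ A, cq i) := by
          rw [← Real.exp_add]
          refine Real.exp_le_exp.2 ?_
          linarith
        have h5 : (D * ms mu M (cl D w u v) * M) *
            (Real.exp a0 * Real.exp (co (D * P) u v)) ≤
            (D * ms mu M (cl D w u v) * M) * Real.exp (a1 + ∑ i ∈ A, cq i) :=
          mul_le_mul_of_nonneg_left h4 (by positivity)
        have h6 := h3.trans h5
        rw [Nat.cast_mul] at h6
        have h7 : (D : ℝ) * M * (ms mu M (cl (D * P) ((1 + j0) % (D * P)) u v) * P) ≤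
            (D : ℝ) * M * (Real.exp (a1 + ∑ i ∈ A, cq i) *
              ms mu M (cl D w u v)) := by
          linarith
        exact le_of_mul_le_mul_left h7 (by positivity)
      refine h2.trans ?_
      -- the product of the constants
      have h8 : ∀ i ∈ A, Real.exp (a1 + cq i) / q i ≤ Mi i * lam i (x i) := by
        intro i hi
        have hqp : (0 : ℝ) < q i := by exact_mod_cast hq i
        have h9 := hAa i (1 + j0) hj0
        rw [hx0 i hi] at h9
        have h10 := hlam0 i (x i)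
        rw [div_le_iff₀ hqp]
        have h11 := mul_le_mul_of_nonneg_right (hMi i)
          (mul_nonneg hqp.le h10)
        have h12 : Aa i * Real.exp (a1 + cq i) * (q i * lam i (x i)) =
            Real.exp (a1 + cq i) * (Aa i * (q i * lam i (x i))) := by ring
        have h13 := mul_le_mul_of_nonneg_left h9 (Real.exp_pos (a1 + cq i)).le
        rw [h12] at h11
        linarith
      have h14 : Real.exp (a1 + ∑ i ∈ A, cq i) / P ≤
          ∏ i ∈ A, (Real.exp (a1 + cq i) / q i) := by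
        rw [Finset.prod_div_distrib, ← Real.exp_sum, hP, Nat.cast_prod]
        refine div_le_div_of_nonneg_right (Real.exp_le_exp.2 ?_)
          (Finset.prod_nonneg fun i _ => Nat.cast_nonneg _)
        rw [Finset.sum_add_distrib, Finset.sum_const, nsmul_eq_mul]
        have h15 : (1 : ℝ) ≤ A.card := by exact_mod_cast Finset.card_pos.2 hA0
        nlinarith
      refine h14.trans ?_
      unfold lw
      rw [← Finset.prod_mul_distrib]
      exact Finset.prod_le_prod (fun i _ => by positivity) h8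

/-! ### the entropy inequality and block [B] -/

/-- **MEIK at a cell, for coordinates containing the family** -/
theorem MFld.meik (h : MFld f W c Dm co M mu) (hf : FamOk f Mm)
    (hcW : ∀ p ∈ W, 0 < p ∧ 0 ≤ c p) (hmu : Law mu 1 M) (hmu0 : ∀ n, 0 ≤ mu n)
    (hq : ∀ i, 0 < q i) (hc : Pairwise fun i j => (q i).Coprime (q j))
    (hqi : Function.Injective q)
    (hr : ∀ i n m, r i n = r i m ↔ n ≡ m [MOD q i])
    {D w u v : ℕ} (hD : 1 ≤ D) (hDD : (D : ℝ) ≤ Real.exp Dm) (hu : 1 ≤ u)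
    (hv : v ≤ M) (hMV : (M : ℝ) ≤ Real.exp Dm * ((v + 1 - u : ℕ) : ℝ))
    (hqD : ∀ i, (q i).Coprime D) {a0 a1 : ℝ} (ha0 : a0 ≤ Dm) (ha1 : a0 + co D u v ≤ a1)
    (hthick : Real.exp (-a0) * ((v + 1 - u : ℕ) : ℝ) ≤ D * ms mu M (cl D w u v) * M)
    {k : κ} (hk : k ∈ f.F) (hω : 0 < f.ω k * f.K k)
    (hcov : ∀ p ∈ f.W k, p.Coprime D → ∃ i, q i = p)
    {T : ι → ℝ} (hT : ∀ i, T i = if q i ∈ f.W k then f.t k (q i) else 0)
    (hhalf : 1 / 2 ≤ ∏ p ∈ f.W k with ¬ p.Coprime D, (1 - f.t k p))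
    {K q0 : ℝ} (hK1 : 1 ≤ K) (hK : K ≤ Real.exp Dm)
    (hq0 : ∑ R ∈ (f.W k).powerset with ¬ ∏ p ∈ R, p ≤ f.B k, bwt (f.t k) (f.W k) R ≤ q0) :
    MEIK T (2 * (3 + Real.log K) * (2 / (f.ω k * f.K k)) + q0)
      (4 * (3 + Real.log K) * (2 / (f.ω k * f.K k)) * a1) K
      (pf r (Vale.Agent.P042.H945.rst mu M (cl D w u v)) 1 M) := by
  have hV := V_pos hmu hMV
  have hm0 := ms_nonneg hmu (cl D w u v)
  have hmp : 0 < ms mu M (cl D w u v) := by
    rcases hm0.eq_or_lt with h0 | h0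
    · rw [← h0] at hthick
      have : 0 < Real.exp (-a0) * ((v + 1 - u : ℕ) : ℝ) := by positivity
      simp at hthick
      linarith
    · exact h0
  have hlaw := rst_law hmu hmp
  have hT0 : ∀ i, 0 ≤ T i := fun i => by
    rw [hT]
    split_ifs with h1
    · exact hf.ht0 k hk _ h1
    · exact le_rfl
  have hT1 : ∀ i, T i ≤ 1 := fun i => by
    rw [hT]
    split_ifs with h1
    · exact hf.ht1 k hk _ h1
    · exact zero_le_one
  refine MEIK_int hq hc hr hlaw hmu (fun i hi h0 => ac_rst i hi h0) hT0 hT1 hK1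
    (tail_gen hqi hcov hqD hT (hf.hW k hk) (hf.ht0 k hk) (hf.ht1 k hk) hq0) fun y hy hle => ?_
  refine fam_gen hqi hcov hqD hT (hf.hW k hk) (hf.ht0 k hk) (hf.ht1 k hk) hhalf hω hmu hy
    (ac_of_le hy hle) ac_rst ?_
  have h1 := h.fam hf hcW hmu hmu0 hD hDD hu hv hMV ha0 hthick hk hK hy hle
  linarith

end core

end Vale.Agent.P042.H103
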