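import Vale.Agent.P042.H103.MfB
import Vale.Agent.P042.H362.DenF

/-!
# P042 [D], power regime: squarefree moduli and the weights over one prime for the parameters `PP`
-/

set_option autoImplicit false
set_option linter.unusedSectionVars false

namespace Vale.Agent.P042.H103

open Finset Vale.Agent.P042.H945 Vale.Agent.P042.H599 Vale.Agent.P042.H362

/-- the mass of the sets containing `p` -/
theorem sum_bwt_mem (t : ℕ → ℝ) (W : Finset ℕ) {p : ℕ} (hp : p ∈ W) :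
    ∑ R ∈ W.powerset, bwt t W R * (if p ∈ R then 1 else 0) = t p := by
  have h1 := sum_bwt_inter t W {p} fun R => if p ∈ R then 1 else 0
  have h2 : ∀ R : Finset ℕ, (p ∈ R ∩ {p} ↔ p ∈ R) := fun R => by simp
  simp only [h2] at h1
  rw [h1, Finset.inter_singleton_of_mem hp, show ({p} : Finset ℕ) = insert p ∅ by rfl,
    Finset.sum_powerset_insert (Finset.notMem_empty p), Finset.powerset_empty]
  simp [bwt]

theorem sum_bwt_mem_le {t : ℕ → ℝ} {W : Finset ℕ} {p B : ℕ} (hW : ∀ p ∈ W, p.Prime)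
    (hpp : p.Prime) (ht0 : ∀ p ∈ W, 0 ≤ t p) (ht1 : ∀ p ∈ W, t p ≤ 1) :
    ∑ R ∈ W.powerset, bwt t W R *
        (if ∏ p ∈ R, p ≤ B then (if p ∣ ∏ p ∈ R, p then 1 else 0) else 0) ≤
      if p ∈ W then t p else 0 := by
  have hdvd : ∀ R ⊆ W, (p ∣ ∏ p ∈ R, p ↔ p ∈ R) := fun R hR => by
    constructor
    · intro h
      obtain ⟨r, hr, hpr⟩ := (Prime.dvd_finsetProd_iff hpp.prime _).1 h
      have := (Nat.prime_dvd_prime_iff_eq hpp (hW r (hR hr))).1 hpr
      rwa [this]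
    · exact fun h => Finset.dvd_prod_of_mem _ h
  have h1 : ∑ R ∈ W.powerset, bwt t W R *
      (if ∏ p ∈ R, p ≤ B then (if p ∣ ∏ p ∈ R, p then 1 else 0) else 0) ≤
      ∑ R ∈ W.powerset, bwt t W R * (if p ∈ R then 1 else 0) := by
    refine Finset.sum_le_sum fun R hR => ?_
    have hR' := Finset.mem_powerset.1 hR
    refine mul_le_mul_of_nonneg_left ?_ (bwt_nonneg ht0 ht1 hR')
    simp only [hdvd R hR']
    split_ifs <;> norm_num
  refine h1.trans ?_
  by_cases hp : p ∈ W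
  · rw [if_pos hp, sum_bwt_mem t W hp]
  · rw [if_neg hp]
    refine (Finset.sum_eq_zero fun R hR => ?_).le
    rw [if_neg fun h => hp (Finset.mem_powerset.1 hR h), mul_zero]

variable {κ : Type} {f : Vale.Agent.P042.H599.Fam κ} {W : Finset ℕ} {c : ℕ → ℝ}
  {om : ℕ → ℕ → Finset ℕ → ℝ} {lam : ℕ → ℕ} {eta D0 E1 : ℝ} {Mm : ℕ}

/-- the moduli of `PP` are squarefree -/
theorem sqF_PP (hW : ∀ p ∈ W, p.Prime) (hsub : ∀ k ∈ f.F, f.W k ⊆ W) :
    SqF (PP f W c om lam eta D0 E1 Mm) where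
  sq := by
    intro i hi
    rcases Finset.mem_disjSum.1 hi with ⟨p, hp, rfl⟩ | ⟨j, hj, rfl⟩
    · exact (hW p hp).squarefree
    · rw [mem_fI] at hj
      have h1 : ∀ p ∈ j.2, p.Prime := fun p hp => hW p (hsub _ hj.1 (hj.2.1 hp))
      show Squarefree (∏ p ∈ j.2, p)
      refine Finset.squarefree_prod_of_pairwise_isCoprime ?_ fun p hp => (h1 p hp).squarefree
      intro p hp q hq hpq
      exact Nat.coprime_iff_isRelPrime.1 ((Nat.coprime_primes (h1 p hp) (h1 q hq)).2 hpq)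
  pr := hW
  sub := by
    intro i hi p hp hpd
    rcases Finset.mem_disjSum.1 hi with ⟨q, hq, rfl⟩ | ⟨j, hj, rfl⟩
    · have : p = q := (Nat.prime_dvd_prime_iff_eq hp (hW q hq)).1 hpd
      rw [this]
      exact hq
    · rw [mem_fI] at hj
      have h1 : p ∣ ∏ p ∈ j.2, p := hpd
      obtain ⟨r, hr, hpr⟩ := (Prime.dvd_finsetProd_iff hp.prime _).1 h1
      have h2 : r ∈ W := hsub _ hj.1 (hj.2.1 hr)
      have : p = r := (Nat.prime_dvd_prime_iff_eq hp (hW r h2)).1 hpr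
      show p ∈ W
      rw [this]
      exact h2

/-- **the weights over one prime** -/
theorem c4_PP (hf : FamOk f Mm) (hW : ∀ p ∈ W, p.Prime) (hsub : ∀ k ∈ f.F, f.W k ⊆ W) {p : ℕ}
    (hp : p ∈ W) :
    ∑ i ∈ (PP f W c om lam eta D0 E1 Mm).I with p ∣ (PP f W c om lam eta D0 E1 Mm).m i,
        (PP f W c om lam eta D0 E1 Mm).c i ≤
      c p + ∑ k ∈ f.F, f.ω k * f.K k * (if p ∈ f.W k then f.t k p else 0) := by
  have hpp := hW p hp
  rw [Finset.sum_filter]
  have h1 : ∑ i ∈ (PP f W c om lam eta D0 E1 Mm).I,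
      (if p ∣ (PP f W c om lam eta D0 E1 Mm).m i then (PP f W c om lam eta D0 E1 Mm).c i else 0) =
      ∑ i ∈ (PP f W c om lam eta D0 E1 Mm).I, (PP f W c om lam eta D0 E1 Mm).c i *
        (if p ∣ (PP f W c om lam eta D0 E1 Mm).m i then 1 else 0) :=
    Finset.sum_congr rfl fun i _ => by split_ifs <;> simp
  rw [h1, sum_PP f W c om lam eta D0 E1 Mm
    (fun i => if p ∣ (PP f W c om lam eta D0 E1 Mm).m i then 1 else 0)]
  have h2 : ∑ q ∈ W, c q * (if p ∣ (PP f W c om lam eta D0 E1 Mm).m (Sum.inl q) then 1 else 0) =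
      c p := by
    rw [Finset.sum_eq_single p]
    · have : p ∣ (PP f W c om lam eta D0 E1 Mm).m (Sum.inl p) := dvd_refl p
      rw [if_pos this, mul_one]
    · intro q hq hqp
      have : ¬ p ∣ (PP f W c om lam eta D0 E1 Mm).m (Sum.inl q) := fun h =>
        hqp ((Nat.prime_dvd_prime_iff_eq hpp (hW q hq)).1 h).symm
      rw [if_neg this, mul_zero]
    · intro h
      exact absurd hp h
  have h3 : ∑ i ∈ fI f, fc f i *
      (if p ∣ (PP f W c om lam eta D0 E1 Mm).m (Sum.inr i) then (1 : ℝ) else 0) =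
      ∑ k ∈ f.F, f.ω k * f.K k * ∑ R ∈ (f.W k).powerset, bwt (f.t k) (f.W k) R *
        (if ∏ p ∈ R, p ≤ f.B k then (if p ∣ ∏ p ∈ R, p then 1 else 0) else 0) :=
    sum_fI f fun _ R => if p ∣ ∏ p ∈ R, p then (1 : ℝ) else 0
  rw [h2, h3]
  refine add_le_add le_rfl (Finset.sum_le_sum fun k hk => ?_)
  refine mul_le_mul_of_nonneg_left ?_ (mul_nonneg (hf.hω k hk) (Nat.cast_nonneg _))
  exact sum_bwt_mem_le (fun q hq => hW q (hsub k hk hq)) hpp (hf.ht0 k hk) (hf.ht1 k hk)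

/-- the weights over one prime are at most `c p + 1 / 4` -/
theorem c4_PP' (hf : FamOk f Mm) (hW : ∀ p ∈ W, p.Prime) (hsub : ∀ k ∈ f.F, f.W k ⊆ W) {p : ℕ}
    (hp : p ∈ W) :
    ∑ i ∈ (PP f W c om lam eta D0 E1 Mm).I with p ∣ (PP f W c om lam eta D0 E1 Mm).m i,
        (PP f W c om lam eta D0 E1 Mm).c i ≤ c p + 1 / 4 := by
  refine (c4_PP hf hW hsub hp).trans (add_le_add le_rfl ?_)
  refine le_trans (Finset.sum_le_sum fun k hk => ?_) hf.hω1
  have h1 := hf.hω k hk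
  by_cases h : p ∈ f.W k
  · rw [if_pos h, mul_assoc]
    have h2 := mul_le_mul_of_nonneg_left (hf.htK k hk p h) h1
    linarith
  · rw [if_neg h, mul_zero]
    exact h1

end Vale.Agent.P042.H103
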