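import Vale.Agent.P042.H103.FamS
import Vale.Agent.P042.H972.FamP

/-!
# P042, row 32d: `FamNum` for the families of the power regime
-/

set_option autoImplicit false
set_option linter.unusedSectionVars false

namespace Vale.Agent.P042.H103

open Finset Filter
open Vale.Agent.P042.H599 (bwt FamOk)
open Vale.Agent.P042.H92 (Prm LF tF)
open Vale.Agent.P042.H972 (famP famL mem_famP mem_famP_W famL_C0 famL_tail' KL KL_pos tL WL)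

/-- the eventual inequalities -/
theorem fam_ev (C1 : ℝ) (hC1 : 1 ≤ C1) {g cB kd c : ℝ} (hkd : 0 < kd)
    (hc : 0 < c) {δ : ℝ} (hδ : 0 < δ) (hδg : 2 * δ < g) :
    ∃ P0 : ℝ, 1 ≤ P0 ∧ ∀ P : ℝ, P0 ≤ P →
      (C1 * Real.log P + 1) / Real.log 2 ≤ P ^ δ ∧ 8 / cB ≤ P ^ (g - 2 * δ) ∧
      6 * P ^ (1 / 2 : ℝ) ≤ kd * P ∧
      1408 * Real.exp (1 - c * P ^ (1 / 2 : ℝ)) * P ^ (1 / 2 : ℝ) ≤ 1 := by
  have hl2 : 0 < Real.log 2 := Real.log_pos (by norm_num)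
  have h1 : ∀ᶠ P : ℝ in atTop, ‖Real.log P‖ ≤ (Real.log 2 / (2 * C1)) * ‖P ^ δ‖ :=
    (isLittleO_log_rpow_atTop hδ).bound (by positivity)
  have h2 : ∀ᶠ P : ℝ in atTop, 2 / Real.log 2 ≤ P ^ δ :=
    (tendsto_rpow_atTop hδ).eventually_ge_atTop _
  have h3 : ∀ᶠ P : ℝ in atTop, 8 / cB ≤ P ^ (g - 2 * δ) :=
    (tendsto_rpow_atTop (by linarith)).eventually_ge_atTop _
  have h4 : ∀ᶠ P : ℝ in atTop, max (6 / kd) (2 * 1408 * 3 / c ^ 2) ≤ P ^ (1 / 2 : ℝ) :=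
    (tendsto_rpow_atTop (by norm_num)).eventually_ge_atTop _
  obtain ⟨P0, hP0⟩ := Filter.eventually_atTop.1 (h1.and (h2.and (h3.and h4)))
  refine ⟨max P0 1, le_max_right _ _, fun P hP => ?_⟩
  obtain ⟨a1, a2, a3, a4⟩ := hP0 P ((le_max_left _ _).trans hP)
  have hP1 : 1 ≤ P := (le_max_right _ _).trans hP
  have hPp : 0 < P := by linarith
  have hy0 : 0 < P ^ (1 / 2 : ℝ) := Real.rpow_pos_of_pos hPp _
  have hyy : P ^ (1 / 2 : ℝ) * P ^ (1 / 2 : ℝ) = P := by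
    rw [← Real.rpow_add hPp]; norm_num
  refine ⟨?_, a3, ?_, ?_⟩
  · rw [Real.norm_of_nonneg (Real.log_nonneg hP1),
      Real.norm_of_nonneg (Real.rpow_nonneg hPp.le _)] at a1
    rw [div_le_iff₀ hl2]
    rw [div_le_iff₀ hl2] at a2
    have h5 : C1 * Real.log P ≤ Real.log 2 / 2 * P ^ δ := by
      calc C1 * Real.log P ≤ C1 * (Real.log 2 / (2 * C1) * P ^ δ) := by gcongr
        _ = _ := by field_simp
    nlinarith
  · have h5 : 6 / kd ≤ P ^ (1 / 2 : ℝ) := (le_max_left _ _).trans a4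
    rw [div_le_iff₀ hkd] at h5
    calc 6 * P ^ (1 / 2 : ℝ) ≤ (P ^ (1 / 2 : ℝ) * kd) * P ^ (1 / 2 : ℝ) := by gcongr
      _ = kd * (P ^ (1 / 2 : ℝ) * P ^ (1 / 2 : ℝ)) := by ring
      _ = kd * P := by rw [hyy]
  · have h5 : 2 * 1408 * 3 / c ^ 2 ≤ P ^ (1 / 2 : ℝ) := (le_max_right _ _).trans a4
    rw [div_le_iff₀ (by positivity)] at h5
    have he : Real.exp 1 ≤ 3 := by
      have := Real.exp_one_lt_d9; linarith
    obtain ⟨y, hy⟩ : ∃ y, y = P ^ (1 / 2 : ℝ) := ⟨_, rfl⟩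
    rw [← hy] at h5 hy0 ⊢
    have h6 := Real.quadratic_le_exp_of_nonneg (show 0 ≤ c * y by positivity)
    have h7 : Real.exp (1 - c * y) = Real.exp 1 / Real.exp (c * y) := Real.exp_sub _ _
    rw [h7]
    have h8 : 1408 * 3 * y ≤ Real.exp (c * y) := by
      have h9 : 1408 * 3 * y ≤ (c * y) ^ 2 / 2 := by nlinarith
      have h10 : 0 ≤ c * y := by positivity
      linarith
    have h9 : 1408 * (Real.exp 1 / Real.exp (c * y)) * y = 1408 * Real.exp 1 * y / Real.exp (c * y) := by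
      ring
    rw [h9, div_le_one (Real.exp_pos _)]
    refine le_trans ?_ h8
    have := mul_le_mul_of_nonneg_right he hy0.le
    nlinarith

/-- the tail of one family -/
theorem fam_q0 {Kc CK K0 : ℕ} {C1 g cB P δ : ℝ} (hKc : 1 ≤ Kc) (hcB : 0 < cB) (hP1 : 1 ≤ P)
    {m n : ℕ} (hm1 : 1 ≤ m) (hn1 : 1 ≤ n) (hnδ : (n : ℝ) ≤ P ^ δ)
    (e2 : 8 / cB ≤ P ^ (g - 2 * δ)) (hx4 : ((m : ℝ) * n) ^ CK * n ≤ P ^ (1 / 2 : ℝ)) :
    ∑ R ∈ (WL K0 ⌊P ^ C1⌋₊ n).powerset with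
      ¬ ∏ p ∈ R, p ≤ ⌊Real.exp (cB * P / KL Kc CK ((m, n, 1) : ℕ × ℕ × ℕ))⌋₊,
      bwt (tL Kc CK g P ((m, n, 1) : ℕ × ℕ × ℕ)) (WL K0 ⌊P ^ C1⌋₊ n) R ≤
      Real.exp (1 - cB / (2 * Kc) * P ^ (1 / 2 : ℝ)) := by
  have hPp : 0 < P := by linarith
  have hn1r : (1 : ℝ) ≤ n := by exact_mod_cast hn1
  have hKcr : (1 : ℝ) ≤ Kc := by exact_mod_cast hKc
  have hK1 : 1 ≤ KL Kc CK ((m, n, 1) : ℕ × ℕ × ℕ) := KL_pos hKc hm1 hn1 le_rfl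
  have hKL : ((KL Kc CK ((m, n, 1) : ℕ × ℕ × ℕ) : ℕ) : ℝ) = Kc * ((m : ℝ) * n) ^ CK := by
    unfold KL
    push_cast
    ring_nf
  have hg4 : 4 / cB * ((n : ℝ) * (1 + n)) ≤ P ^ g := by
    have h1 : (n : ℝ) * (1 + n) ≤ 2 * (P ^ δ) ^ 2 := by nlinarith
    have h2 : (P ^ δ) ^ 2 = P ^ (2 * δ) := by
      rw [← Real.rpow_natCast, ← Real.rpow_mul hPp.le]
      congr 1
      push_cast
      ring
    have h3 : P ^ g = P ^ (g - 2 * δ) * P ^ (2 * δ) := by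
      rw [← Real.rpow_add hPp]
      congr 1
      ring
    rw [h3]
    calc 4 / cB * ((n : ℝ) * (1 + n)) ≤ 4 / cB * (2 * (P ^ δ) ^ 2) := by gcongr
      _ = 8 / cB * P ^ (2 * δ) := by rw [h2]; ring
      _ ≤ _ := by gcongr
  have htl := famL_tail' (Kc := Kc) (CK := CK) (K0 := K0) (Y := ⌊P ^ C1⌋₊) (g := g) (cB := cB)
    (P := P) hPp hcB (f := ((m, n, 1) : ℕ × ℕ × ℕ)) hK1 hn1 hg4
  refine htl.trans ?_
  obtain ⟨K, hK⟩ : ∃ K : ℝ, K = (KL Kc CK ((m, n, 1) : ℕ × ℕ × ℕ) : ℝ) := ⟨_, rfl⟩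
  rw [← hK] at hKL
  show Real.exp (1 - cB * P / (2 * ((KL Kc CK ((m, n, 1) : ℕ × ℕ × ℕ) : ℝ) * (n : ℝ)))) ≤ _
  rw [← hK]
  have hK1r : (1 : ℝ) ≤ K := by rw [hK]; exact_mod_cast hK1
  have hKn : K * (n : ℝ) ≤ Kc * P ^ (1 / 2 : ℝ) := by
    rw [hKL, mul_assoc]
    exact mul_le_mul_of_nonneg_left hx4 (by linarith)
  have hKn0 : 0 < K * (n : ℝ) := by positivity
  rw [Real.exp_le_exp]
  have hyy : P ^ (1 / 2 : ℝ) * P ^ (1 / 2 : ℝ) = P := by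
    rw [← Real.rpow_add hPp]; norm_num
  have hy0 : 0 < P ^ (1 / 2 : ℝ) := Real.rpow_pos_of_pos hPp _
  have h1 : cB / (2 * Kc) * P ^ (1 / 2 : ℝ) ≤ cB * P / (2 * (K * (n : ℝ))) := by
    calc cB / (2 * Kc) * P ^ (1 / 2 : ℝ) = cB * P / (2 * (Kc * P ^ (1 / 2 : ℝ))) := by
          rw [div_mul_eq_mul_div, div_eq_div_iff (by positivity) (by positivity)]
          calc cB * P ^ (1 / 2 : ℝ) * (2 * (Kc * P ^ (1 / 2 : ℝ))) =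
              cB * (P ^ (1 / 2 : ℝ) * P ^ (1 / 2 : ℝ)) * (2 * Kc) := by ring
            _ = cB * P * (2 * Kc) := by rw [hyy]
      _ ≤ _ := by
          refine div_le_div_of_nonneg_left (by positivity) (by positivity) ?_
          linarith
  linarith

/-- the powers -/
theorem fam_pw {CK : ℕ} {d1 P δ : ℝ} (hP1 : 1 ≤ P) (hCK : 10 ≤ CK) (hdc : 8 * d1 * CK ≤ 1)
    (hδ2 : δ * (CK + 1) ≤ 1 / 8) {m n : ℕ} (hm1 : 1 ≤ m) (hn1 : 1 ≤ n) (hm3 : (m : ℝ) ≤ P ^ (2 * d1))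
    (hnδ : (n : ℝ) ≤ P ^ δ) :
    ((m : ℝ) * n) ^ CK * n ≤ P ^ (1 / 2 : ℝ) ∧ LF m n ≤ P ^ (1 / 2 : ℝ) := by
  have hPp : 0 < P := by linarith
  have hn1r : (1 : ℝ) ≤ n := by exact_mod_cast hn1
  have hm1r : (1 : ℝ) ≤ m := by exact_mod_cast hm1
  have hx1 : (1 : ℝ) ≤ (m : ℝ) * n := by nlinarith
  have hm4 : (m : ℝ) ^ CK ≤ P ^ (1 / 4 : ℝ) := by
    calc (m : ℝ) ^ CK ≤ (P ^ (2 * d1)) ^ CK := by gcongr
      _ = P ^ (2 * d1 * CK) := by rw [← Real.rpow_natCast, ← Real.rpow_mul hPp.le]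
      _ ≤ P ^ (1 / 4 : ℝ) := Real.rpow_le_rpow_of_exponent_le hP1 (by linarith)
  have hn4 : (n : ℝ) ^ (CK + 1) ≤ P ^ (1 / 8 : ℝ) := by
    calc (n : ℝ) ^ (CK + 1) ≤ (P ^ δ) ^ (CK + 1) := by gcongr
      _ = P ^ (δ * (CK + 1)) := by
          rw [← Real.rpow_natCast, ← Real.rpow_mul hPp.le]; push_cast; rfl
      _ ≤ P ^ (1 / 8 : ℝ) := Real.rpow_le_rpow_of_exponent_le hP1 hδ2
  have hx4 : ((m : ℝ) * n) ^ CK * n ≤ P ^ (1 / 2 : ℝ) := by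
    calc ((m : ℝ) * n) ^ CK * n = (m : ℝ) ^ CK * (n : ℝ) ^ (CK + 1) := by ring
      _ ≤ P ^ (1 / 4 : ℝ) * P ^ (1 / 8 : ℝ) := by gcongr
      _ = P ^ (3 / 8 : ℝ) := by rw [← Real.rpow_add hPp]; norm_num
      _ ≤ P ^ (1 / 2 : ℝ) := Real.rpow_le_rpow_of_exponent_le hP1 (by norm_num)
  refine ⟨hx4, ?_⟩
  show ((m : ℝ) * n) ^ 4 ≤ _
  calc ((m : ℝ) * n) ^ 4 ≤ ((m : ℝ) * n) ^ CK := pow_le_pow_right₀ hx1 (by omega)
    _ ≤ ((m : ℝ) * n) ^ CK * n := le_mul_of_one_le_right (by positivity) hn1r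
    _ ≤ _ := hx4

/-- the rates -/
theorem fam_rate {Kc CK : ℕ} {g P G p0 : ℝ} {CK' : ℕ} (hKc : 1 ≤ Kc) (hP1 : 1 ≤ P)
    (hp0 : p0 = Real.log P) (hG : g ≤ G) (hCK' : CK + 1 ≤ CK') {m n : ℕ} (hm1 : 1 ≤ m)
    (hn1 : 1 ≤ n) (hKx : (Kc : ℝ) ≤ (m : ℝ) * n) {p : ℕ} (hp : 0 < p) :
    min 1 (Real.exp ((1 - G) * p0) / p) / ((m : ℝ) * n) ^ CK' ≤
      tL Kc CK g P ((m, n, 1) : ℕ × ℕ × ℕ) p := by
  have hPp : 0 < P := by linarith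
  have hKcr : (1 : ℝ) ≤ Kc := by exact_mod_cast hKc
  have hlog : 0 ≤ Real.log P := Real.log_nonneg hP1
  have hn1r : (1 : ℝ) ≤ n := by exact_mod_cast hn1
  have hm1r : (1 : ℝ) ≤ m := by exact_mod_cast hm1
  have hx1 : (1 : ℝ) ≤ (m : ℝ) * n := by nlinarith
  have hpr : (0 : ℝ) < p := by exact_mod_cast hp
  unfold tL
  have hKL : ((KL Kc CK ((m, n, 1) : ℕ × ℕ × ℕ) : ℕ) : ℝ) = Kc * ((m : ℝ) * n) ^ CK := by
    unfold KL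
    push_cast
    ring_nf
  rw [hKL]
  have h1 : Real.exp ((1 - G) * p0) ≤ P ^ (1 - g) := by
    rw [Real.rpow_def_of_pos hPp, Real.exp_le_exp, hp0]
    nlinarith
  have h2 : min 1 (Real.exp ((1 - G) * p0) / (p : ℝ)) ≤ min 1 (P ^ (1 - g) / (p : ℝ)) :=
    min_le_min le_rfl (div_le_div_of_nonneg_right h1 hpr.le)
  have h3 : (Kc : ℝ) * ((m : ℝ) * n) ^ CK ≤ ((m : ℝ) * n) ^ CK' := by
    calc (Kc : ℝ) * ((m : ℝ) * n) ^ CK ≤ ((m : ℝ) * n) * ((m : ℝ) * n) ^ CK := by gcongr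
      _ = ((m : ℝ) * n) ^ (CK + 1) := by ring
      _ ≤ _ := pow_le_pow_right₀ hx1 hCK'
  have h4 : 0 ≤ min 1 (P ^ (1 - g) / (p : ℝ)) := le_min zero_le_one (by positivity)
  refine (div_le_div_of_nonneg_right h2 (by positivity)).trans ?_
  exact div_le_div_of_nonneg_left h4 (by positivity) h3

/-- **the numbers of the families of the power regime**, `P0` independent of `K0` -/
theorem famNum_famP {Kc CK : ℕ} {C1 d1 a1e g cB kd : ℝ} (hKc : 1 ≤ Kc) (hCK : 10 ≤ CK)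
    (hC1 : 1 ≤ C1) (hda : 2 * d1 ≤ a1e) (hdc : 8 * d1 * CK ≤ 1) (hcB : 0 < cB)
    (hkd : 0 < kd) (hg : 0 < g) :
    ∃ P0 : ℝ, 1 ≤ P0 ∧ ∀ P : ℝ, P0 ≤ P → ∀ (K0 n0 : ℕ) (a1 : ℝ) (Q : Prm) (W : Finset ℕ) (Dm : ℝ),
      2 ^ n0 ≤ K0 → 2 ≤ n0 → Kc ≤ n0 → 2560000 ≤ (Kc : ℝ) * (n0 : ℝ) ^ (CK - 10) →
      4608 * a1 ≤ (Kc : ℝ) * (n0 : ℝ) ^ (CK - 10) →
      Q.p = Real.log P → Q.C1 ≤ C1 → Q.d1 ≤ d1 → g ≤ Q.G → CK + 1 ≤ Q.CK →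
      (∀ p : ℕ, p ∈ W ↔ p.Prime ∧ K0 < p ∧ (p : ℝ) ≤ P ^ C1) → kd * P ≤ Dm →
      FamNum (famP Kc CK K0 C1 a1e 0 g cB P) Q W K0 a1 Dm := by
  have hCKr : (10 : ℝ) ≤ CK := by exact_mod_cast hCK
  have hKcr : (1 : ℝ) ≤ Kc := by exact_mod_cast hKc
  obtain ⟨δ, hδ⟩ : ∃ δ : ℝ, δ = min (g / 8) (1 / (8 * (CK + 1))) := ⟨_, rfl⟩
  have hδ0 : 0 < δ := by rw [hδ]; exact lt_min (by positivity) (by positivity)
  have hδ1 : δ ≤ g / 8 := by rw [hδ]; exact min_le_left _ _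
  have hδ2 : δ * (CK + 1) ≤ 1 / 8 := by
    have : δ ≤ 1 / (8 * (CK + 1)) := by rw [hδ]; exact min_le_right _ _
    calc δ * (CK + 1) ≤ 1 / (8 * (CK + 1)) * (CK + 1) := by gcongr
      _ = 1 / 8 := by field_simp
  obtain ⟨P0, hP01, hP0⟩ := fam_ev C1 hC1 (g := g) (cB := cB) hkd (c := cB / (2 * Kc)) (by positivity) hδ0
    (by linarith)
  refine ⟨P0, hP01, fun P hP K0 n0 a1 Q W Dm hK0 hn02 hKn hnum hnum' hQp hQC hQd hQG hQCK hW hDm => ?_⟩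
  obtain ⟨e1, e2, e3, e4⟩ := hP0 P hP
  have hP1 : 1 ≤ P := hP01.trans hP
  have hPp : 0 < P := by linarith
  have hlog : 0 ≤ Real.log P := Real.log_nonneg hP1
  have hl2 : 0 < Real.log 2 := Real.log_pos (by norm_num)
  intro m n hm1 hm2 hn1 hn2 hK0n
  have hn0n : n0 < n := by
    by_contra hcon
    have h1 : 2 ^ n ≤ 2 ^ n0 := Nat.pow_le_pow_right (by norm_num) (not_lt.1 hcon)
    omega
  -- the index
  have hn3 : n * Real.log 2 ≤ C1 * Real.log P + 1 := by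
    rw [hQp] at hn2
    have := mul_le_mul_of_nonneg_right hQC hlog
    linarith
  have hm3 : (m : ℝ) ≤ P ^ (2 * d1) := by
    refine hm2.trans ?_
    rw [Real.rpow_def_of_pos hPp, Real.exp_le_exp, hQp]
    nlinarith
  have hnδ : (n : ℝ) ≤ P ^ δ := by
    refine le_trans ?_ e1
    rw [le_div_iff₀ hl2]
    exact hn3
  have hm1r : (1 : ℝ) ≤ m := by exact_mod_cast hm1
  have hn1r : (1 : ℝ) ≤ n := by exact_mod_cast hn1
  have hn0r : (n0 : ℝ) ≤ n := by exact_mod_cast hn0n.le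
  have hn0x : (n0 : ℝ) ≤ (m : ℝ) * n := by nlinarith
  have hKx : (Kc : ℝ) ≤ (m : ℝ) * n := le_trans (by exact_mod_cast hKn) hn0x
  have hx1 : (1 : ℝ) ≤ (m : ℝ) * n := hKcr.trans hKx
  have hkF : ((m, n, 1) : ℕ × ℕ × ℕ) ∈ (famP Kc CK K0 C1 a1e 0 g cB P).F := by
    rw [mem_famP (by linarith) hP1]
    refine ⟨⟨hm1, hm3.trans (Real.rpow_le_rpow_of_exponent_le hP1 hda)⟩, ⟨hn1, ?_⟩, ⟨le_rfl, ?_⟩⟩
    · show (2 : ℝ) ^ n ≤ 8 * P ^ C1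
      have h1 : (2 : ℝ) ^ n = Real.exp (n * Real.log 2) := by
        rw [mul_comm, Real.exp_mul, Real.exp_log (by norm_num), Real.rpow_natCast]
      rw [h1]
      calc Real.exp (n * Real.log 2) ≤ Real.exp (C1 * Real.log P + 1) := Real.exp_le_exp.2 hn3
        _ = Real.exp 1 * P ^ C1 := by
            rw [Real.exp_add, Real.rpow_def_of_pos hPp, mul_comm (Real.log P), mul_comm]
        _ ≤ 8 * P ^ C1 := by
            have := Real.exp_one_lt_d9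
            gcongr
            linarith
    · show ((1 : ℕ) : ℝ) ≤ P ^ (0 : ℝ)
      rw [Real.rpow_zero]; norm_num
  have hWk : (famP Kc CK K0 C1 a1e 0 g cB P).W (m, n, 1) = W.filter (fun p => p ≤ 2 ^ n) := by
    ext p
    rw [mem_famP_W hPp.le, Finset.mem_filter, hW p]
    tauto
  have hLF : LF m n = ((m : ℝ) * n) ^ 4 := rfl
  -- the constant
  have hC0 : (famP Kc CK K0 C1 a1e 0 g cB P).ω (m, n, 1) * (famP Kc CK K0 C1 a1e 0 g cB P).K (m, n, 1) =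
      Kc * ((m : ℝ) * n) ^ (CK - 2) / 64 := by
    have h1 := famL_C0 (CK := CK) (by omega) hkF
    unfold famP
    rw [h1]
    push_cast
    ring_nf
  have hsplit : ((m : ℝ) * n) ^ (CK - 2) = ((m : ℝ) * n) ^ (CK - 10) * ((m : ℝ) * n) ^ 8 := by
    rw [← pow_add]; congr 1; omega
  have hpw : (n0 : ℝ) ^ (CK - 10) ≤ ((m : ℝ) * n) ^ (CK - 10) := by gcongr
  have hC0' : (Kc : ℝ) * (n0 : ℝ) ^ (CK - 10) * ((m : ℝ) * n) ^ 8 / 64 ≤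
      Kc * ((m : ℝ) * n) ^ (CK - 2) / 64 := by
    rw [hsplit, ← mul_assoc]
    gcongr
  have hx8 : 0 < ((m : ℝ) * n) ^ 8 := by positivity
  obtain ⟨hx4, hLFP⟩ := fam_pw hP1 hCK hdc hδ2 hm1 hn1 hm3 hnδ
  refine ⟨(m, n, 1), hkF, hWk, ?_, ?_, ?_, ?_, ?_, ?_⟩
  · rw [hLF]
    have h2 : (2 : ℝ) ≤ (m : ℝ) * n := le_trans (by exact_mod_cast hn02) hn0x
    have h3 : (2 : ℝ) ^ 4 ≤ ((m : ℝ) * n) ^ 4 := by gcongr
    norm_num at h3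
    linarith
  · rw [hC0, hLF]
    refine le_trans ?_ hC0'
    have h1 : (((m : ℝ) * n) ^ 4) ^ 2 = ((m : ℝ) * n) ^ 8 := by ring
    rw [h1, le_div_iff₀ (by norm_num)]
    calc 40000 * ((m : ℝ) * n) ^ 8 * 64 = 2560000 * ((m : ℝ) * n) ^ 8 := by ring
      _ ≤ _ := mul_le_mul_of_nonneg_right hnum hx8.le
  · rw [hC0, hLF]
    refine le_trans ?_ hC0'
    have h1 : (((m : ℝ) * n) ^ 4) ^ 2 = ((m : ℝ) * n) ^ 8 := by ring
    rw [h1, le_div_iff₀ (by norm_num)]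
    calc 72 * a1 * ((m : ℝ) * n) ^ 8 * 64 = (4608 * a1) * ((m : ℝ) * n) ^ 8 := by ring
      _ ≤ _ := mul_le_mul_of_nonneg_right hnum' hx8.le
  · refine le_trans ?_ (e3.trans hDm)
    exact mul_le_mul_of_nonneg_left hLFP (by norm_num)
  · refine ⟨_, fam_q0 (K0 := K0) (C1 := C1) hKc hcB hP1 hm1 hn1 hnδ e2 hx4, ?_⟩
    calc 1408 * Real.exp (1 - cB / (2 * Kc) * P ^ (1 / 2 : ℝ)) * LF m n
        ≤ 1408 * Real.exp (1 - cB / (2 * Kc) * P ^ (1 / 2 : ℝ)) * P ^ (1 / 2 : ℝ) := by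
          gcongr
      _ ≤ 1 := e4
  · intro p hp _
    exact fam_rate hKc hP1 hQp hQG hQCK hm1 hn1 hKx ((hW p).1 hp).1.pos

end Vale.Agent.P042.H103
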