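import Vale.Agent.P042.H103.MeiC

/-!
# P042, row 32d: `FamOn` from a statement without sites
-/

set_option autoImplicit false
set_option linter.unusedSectionVars false

namespace Vale.Agent.P042.H103

open Finset
open Vale.Agent.P042.H599 (bwt FamOk)
open Vale.Agent.P042.H92 (Prm LF tF)

variable {κ' : Type} {W : Finset ℕ} {fm : Vale.Agent.P042.H599.Fam κ'} {Dm : ℝ}

/-- **the numbers of the families** (no sites): one family for every order and scale -/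
def FamNum (fm : Vale.Agent.P042.H599.Fam κ') (Q : Prm) (W : Finset ℕ) (K0 : ℕ) (a1 Dm : ℝ) :
    Prop :=
  ∀ m n : ℕ, 1 ≤ m → (m : ℝ) ≤ Real.exp (2 * Q.d1 * Q.p) → 1 ≤ n →
    n * Real.log 2 ≤ Q.C1 * Q.p + 1 → K0 < 2 ^ n →
    ∃ k ∈ fm.F, fm.W k = W.filter (fun p => p ≤ 2 ^ n) ∧
      10 ≤ LF m n ∧ 40000 * LF m n ^ 2 ≤ fm.ω k * fm.K k ∧
      72 * a1 * LF m n ^ 2 ≤ fm.ω k * fm.K k ∧ 6 * LF m n ≤ Dm ∧
      (∃ q0, ∑ R ∈ (fm.W k).powerset with ¬ ∏ p ∈ R, p ≤ fm.B k, bwt (fm.t k) (fm.W k) R ≤ q0 ∧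
        1408 * q0 * LF m n ≤ 1) ∧
      ∀ p ∈ W, p ≤ 2 ^ n →
        min 1 (Real.exp ((1 - Q.G) * Q.p) / p) / ((m : ℝ) * n) ^ Q.CK ≤ fm.t k p

variable {ι : Type*} {q : ι → ℕ}

/-- **`FamOn` from the numbers and the sites** -/
theorem famOn_of {Q : Prm} {K0 : ℕ} {a1 : ℝ} (h : FamNum fm Q W K0 a1 Dm) {S : Finset ι}
    {es : ι → ℝ} {D : ℕ} (hS : ∀ i ∈ S, q i ∈ W ∧ Real.log (q i) ≤ es i)
    (hW : ∀ p ∈ W, p.Coprime D ∧ ∃ i, q i = p) (hK : ∀ p ∈ W, K0 < p) :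
    FamOn fm Q S es q D a1 Dm := by
  intro m n hm1 hm2 hn1 hn2 ⟨i0, hi0, hi1⟩
  have hle : ∀ i ∈ S, es i ≤ n * Real.log 2 → q i ≤ 2 ^ n := by
    intro i hi hei
    have h1 := (hS i hi).2
    have h0 : 0 < q i := lt_of_le_of_lt (Nat.zero_le _) (hK _ (hS i hi).1)
    have h2 : Real.log (q i) ≤ Real.log ((2 : ℝ) ^ n) := by
      rw [Real.log_pow]
      linarith
    have h3 : (q i : ℝ) ≤ (2 : ℝ) ^ n :=
      (Real.log_le_log_iff (by exact_mod_cast h0) (by positivity)).1 h2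
    exact_mod_cast h3
  have hK0 : K0 < 2 ^ n := lt_of_lt_of_le (hK _ (hS i0 hi0).1) (hle i0 hi0 hi1)
  obtain ⟨k, hk, hWk, h10, hC0, ha, h6, hq, ht⟩ := h m n hm1 hm2 hn1 hn2 hK0
  refine ⟨k, hk, fun p hp => ?_, h10, hC0, ha, h6, hq, fun i hi hei => ?_⟩
  · rw [hWk] at hp
    exact hW p (Finset.mem_filter.1 hp).1
  · have h1 := hle i hi hei
    have hqW := (hS i hi).1
    refine ⟨by rw [hWk]; exact Finset.mem_filter.2 ⟨hqW, h1⟩, ?_⟩
    refine le_trans ?_ (ht _ hqW h1)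
    have h0 : (0 : ℝ) < q i := by
      exact_mod_cast lt_of_le_of_lt (Nat.zero_le _) (hK _ hqW)
    refine div_le_div_of_nonneg_right ?_ (by positivity)
    unfold Vale.Agent.P042.H365.rate
    refine min_le_min le_rfl ?_
    rw [Real.exp_sub]
    refine div_le_div_of_nonneg_left (Real.exp_pos _).le h0 ?_
    rw [← Real.log_le_iff_le_exp h0]
    exact (hS i hi).2

end Vale.Agent.P042.H103
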