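import Vale.Agent.P042.H103.MeiF
import Vale.Agent.P042.H438.DC

/-!
# P042, row 32d: `hmei` of `plaw_of_cell` from the state
-/

set_option autoImplicit false
set_option linter.unusedSectionVars false

namespace Vale.Agent.P042.H103

open Finset Polynomial Vale.Agent.P042.H945 Vale.Agent.P042.H858
open Vale.Agent.P042.H599 (bwt FamOk)
open Vale.Agent.P042.H92 (Prm LF tF)
open Vale.Agent.P042.H362 (FP StF1)
open Vale.Agent.P042.H438 (Rs)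

variable {ι : Type*} [Fintype ι] [DecidableEq ι] {V : ι → Type*} [∀ i, Fintype (V i)]
  [∀ i, DecidableEq (V i)] {q : ι → ℕ} {r : ∀ i, ℕ → V i} {f : ℤ[X]}

theorem rs_inj (H : Rs q r) : Function.Injective q := by
  intro i j h
  by_contra hij
  have h1 : (q i).Coprime (q j) := H.cop hij
  rw [h, Nat.coprime_self] at h1
  have := H.two j
  omega

variable {κ' : Type} {W : Finset ℕ} {qs : FP} {fm : Vale.Agent.P042.H599.Fam κ'} {N : ℕ}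
  {mu : ℕ → ℝ} {Dm Lq : ℝ}

/-- what is needed of the families: one family for every order and scale which has a site -/
def FamOn (fm : Vale.Agent.P042.H599.Fam κ') (Q : Prm) (S : Finset ι) (es : ι → ℝ) (q : ι → ℕ)
    (D : ℕ) (a1 Dm : ℝ) : Prop :=
  ∀ m n : ℕ, 1 ≤ m → (m : ℝ) ≤ Real.exp (2 * Q.d1 * Q.p) → 1 ≤ n →
    n * Real.log 2 ≤ Q.C1 * Q.p + 1 → (∃ i ∈ S, es i ≤ n * Real.log 2) →
    ∃ k ∈ fm.F, (∀ p ∈ fm.W k, p.Coprime D ∧ ∃ i, q i = p) ∧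
      10 ≤ LF m n ∧ 40000 * LF m n ^ 2 ≤ fm.ω k * fm.K k ∧
      72 * a1 * LF m n ^ 2 ≤ fm.ω k * fm.K k ∧ 6 * LF m n ≤ Dm ∧
      (∃ q0, ∑ R ∈ (fm.W k).powerset with ¬ ∏ p ∈ R, p ≤ fm.B k, bwt (fm.t k) (fm.W k) R ≤ q0 ∧
        1408 * q0 * LF m n ≤ 1) ∧
      ∀ i ∈ S, es i ≤ n * Real.log 2 → q i ∈ fm.W k ∧
        H365.rate ((1 - Q.G) * Q.p) (es i) / ((m : ℝ) * n) ^ Q.CK ≤ fm.t k (q i)

/-- **the hypothesis `hmei` of 945's `plaw_of_cell`** -/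
theorem hmei_of (s : StF1 W qs fm f N mu Dm Lq) {Mm : ℕ} (hf : FamOk fm Mm)
    (hW : ∀ p ∈ W, p.Prime) (hbe : 0 ≤ qs.be) (rs : Rs q r)
    {D0 w0 u v : ℕ} (hD : 1 ≤ D0) (hDD : Real.log D0 ≤ Dm) (hu : 1 ≤ u)
    (hv : v ≤ N) (hMV : (N : ℝ) ≤ Real.exp Dm * ((v + 1 - u : ℕ) : ℝ))
    (hqD : ∀ i, (q i).Coprime D0) {a0 a1 : ℝ} (ha00 : 0 ≤ a0) (ha0 : a0 ≤ Dm)
    (ha1 : a0 + H362.costF W qs D0 N ((v + 1 - u : ℕ) : ℝ) ≤ a1)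
    (hthick : Real.exp (-a0) * ((v + 1 - u : ℕ) : ℝ) ≤ D0 * ms mu N (cl D0 w0 u v) * N)
    {Q : Prm} {S : Finset ι} {es : ι → ℝ} (hfam : FamOn fm Q S es q D0 a1 Dm) :
    ∀ m n : ℕ, 1 ≤ m → (m : ℝ) ≤ Real.exp (2 * Q.d1 * Q.p) → 1 ≤ n →
      n * Real.log 2 ≤ Q.C1 * Q.p + 1 →
      H742.MEIK (H92.tF Q S es m n) (1 / (704 * LF m n)) (1 / LF m n) (Real.exp (6 * LF m n))
        (pf r (rst mu N (cl D0 w0 u v)) 1 N) :=
  mei_StF s hf (fun p hp => (hW p hp).pos) hbe rs.pos rs.cop (rs_inj rs) rs.r_iff hD hDD hu hv hMV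
    hqD ha00 ha0 ha1 hthick Q S es hfam

end Vale.Agent.P042.H103
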