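import Vale.Agent.P042.H103.BCore
import Vale.Agent.P042.H858.MSub
import Vale.Agent.P042.H92.PDef

/-!
# P042, row 32d: the multi-coordinate entropy inequalities of `PLaw` from the master inequality

`mei_plaw`: the field `mei` of `PLaw` for the image of a thick cell law, any system of coordinates
(super-moduli included), from one family of the state per order and scale.
-/

set_option autoImplicit false
set_option linter.unusedSectionVars false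

namespace Vale.Agent.P042.H103

open Finset Vale.Agent.P042.H945 Vale.Agent.P042.H858 Vale.Agent.P042.H461 Vale.Agent.P042.H416
  Vale.Agent.P042.H678 Vale.Agent.P042.H742
open Vale.Agent.P042.H779 (marg m1)
open Vale.Agent.P042.H599 (cm Law bwt FamOk)
open Vale.Agent.P042.H92 (Prm LF tF)

variable {ι : Type*} [Fintype ι] [DecidableEq ι] {V : ι → Type*} [∀ i, Fintype (V i)]
  [∀ i, DecidableEq (V i)]

/-- vanishing rates -/
theorem meik_zero {mu : (∀ i, V i) → ℝ} (hmu : IsLaw mu) {t : ι → ℝ} (ht : ∀ i, t i = 0)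
    {ε e1 K : ℝ} (hε : 0 ≤ ε) (he1 : 0 ≤ e1) : MEIK t ε e1 K mu := by
  intro nu hnu hle
  have hac : Vale.Agent.P042.H461.AC nu mu := AC_of_le hnu.1 hle
  have h1 : ∀ R : Finset ι, bw t R * KL (push (Vale.Agent.P042.H416.rst R) nu)
      (push (Vale.Agent.P042.H416.rst R) mu) = 0 := by
    intro R
    rcases R.eq_empty_or_nonempty with h0 | ⟨i, hi⟩
    · subst h0
      have h2 : ∀ la : (∀ i, V i) → ℝ, IsLaw la → ∀ y,
          push (Vale.Agent.P042.H416.rst (∅ : Finset ι)) la y = 1 := by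
        intro la hla y
        unfold Vale.Agent.P042.H461.push
        rw [Finset.filter_true_of_mem fun x _ => ?_, hla.2]
        funext j
        exact absurd j.2 (Finset.notMem_empty _)
      have h3 : KL (push (Vale.Agent.P042.H416.rst (∅ : Finset ι)) nu)
          (push (Vale.Agent.P042.H416.rst (∅ : Finset ι)) mu) = 0 := by
        unfold Vale.Agent.P042.H461.KL
        refine Finset.sum_eq_zero fun y _ => ?_
        rw [h2 nu hnu, h2 mu hmu, div_one, Real.log_one, mul_zero]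
      rw [h3, mul_zero]
    · have h2 : bw t R = 0 := by
        unfold bw
        rw [Finset.prod_eq_zero hi (ht i), zero_mul]
      rw [h2, zero_mul]
  rw [Finset.sum_eq_zero fun R _ => h1 R]
  exact add_nonneg (mul_nonneg hε (hnu.KL_nonneg hmu hac)) he1

/-- the numbers -/
theorem mei_num {Λ C0 q0 a1 : ℝ} (hΛ : 10 ≤ Λ) (hC0 : 40000 * Λ ^ 2 ≤ C0)
    (ha0 : 0 ≤ a1) (ha : 72 * a1 * Λ ^ 2 ≤ C0) (hq : 1408 * q0 * Λ ≤ 1) :
    2 * (3 + Real.log (Real.exp (6 * Λ))) * (2 / C0) + q0 ≤ 1 / (704 * Λ) ∧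
      4 * (3 + Real.log (Real.exp (6 * Λ))) * (2 / C0) * a1 ≤ 1 / Λ := by
  have hΛ0 : 0 < Λ := by linarith
  have hC : 0 < C0 := lt_of_lt_of_le (by positivity) hC0
  rw [Real.log_exp]
  constructor
  · rw [le_div_iff₀ (by positivity)]
    have h1 : (2 * (3 + 6 * Λ) * (2 / C0) + q0) * (704 * Λ) =
        (2816 * (3 + 6 * Λ) * Λ) / C0 + 704 * q0 * Λ := by field_simp; ring
    have h2 : (2816 * (3 + 6 * Λ) * Λ) / C0 ≤ 1 / 2 := by
      rw [div_le_iff₀ hC]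
      nlinarith
    rw [h1]
    linarith
  · rw [le_div_iff₀ hΛ0]
    have h1 : 4 * (3 + 6 * Λ) * (2 / C0) * a1 * Λ = (8 * (3 + 6 * Λ) * Λ * a1) / C0 := by
      field_simp; ring
    rw [h1, div_le_one hC]
    have h2 : 8 * (3 + 6 * Λ) * Λ ≤ 72 * Λ ^ 2 := by nlinarith
    have h3 := mul_le_mul_of_nonneg_right h2 ha0
    linarith

section core

variable {κ : Type} {f : Vale.Agent.P042.H599.Fam κ} {W : Finset ℕ} {c : ℕ → ℝ} {Dm : ℝ}
  {co : ℕ → ℕ → ℕ → ℝ} {M : ℕ} {mu : ℕ → ℝ} {Mm : ℕ} {q : ι → ℕ} {r : ∀ i, ℕ → V i}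

/-- one family: `MEIK` at the size `Λ` -/
theorem MFld.mei_one (h : MFld f W c Dm co M mu) (hf : FamOk f Mm)
    (hcW : ∀ p ∈ W, 0 < p ∧ 0 ≤ c p) (hmu : Law mu 1 M) (hmu0 : ∀ n, 0 ≤ mu n)
    (hq : ∀ i, 0 < q i) (hc : Pairwise fun i j => (q i).Coprime (q j))
    (hqi : Function.Injective q)
    (hr : ∀ i n m, r i n = r i m ↔ n ≡ m [MOD q i])
    {D w u v : ℕ} (hD : 1 ≤ D) (hDD : (D : ℝ) ≤ Real.exp Dm) (hu : 1 ≤ u)
    (hv : v ≤ M) (hMV : (M : ℝ) ≤ Real.exp Dm * ((v + 1 - u : ℕ) : ℝ))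
    (hqD : ∀ i, (q i).Coprime D) {a0 a1 : ℝ} (ha0 : a0 ≤ Dm) (ha1 : a0 + co D u v ≤ a1)
    (ha10 : 0 ≤ a1)
    (hthick : Real.exp (-a0) * ((v + 1 - u : ℕ) : ℝ) ≤ D * ms mu M (cl D w u v) * M)
    {k : κ} (hk : k ∈ f.F) (hcov : ∀ p ∈ f.W k, p.Coprime D ∧ ∃ i, q i = p) {Λ q0 : ℝ}
    (hΛ : 10 ≤ Λ) (hC0 : 40000 * Λ ^ 2 ≤ f.ω k * f.K k) (ha : 72 * a1 * Λ ^ 2 ≤ f.ω k * f.K k)
    (hΛD : 6 * Λ ≤ Dm)
    (hq0 : ∑ R ∈ (f.W k).powerset with ¬ ∏ p ∈ R, p ≤ f.B k, bwt (f.t k) (f.W k) R ≤ q0)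
    (hqΛ : 1408 * q0 * Λ ≤ 1) {T : ι → ℝ} (hT0 : ∀ i, 0 ≤ T i)
    (hT : ∀ i, T i ≠ 0 → q i ∈ f.W k ∧ T i ≤ f.t k (q i)) :
    MEIK T (1 / (704 * Λ)) (1 / Λ) (Real.exp (6 * Λ))
      (pf r (Vale.Agent.P042.H945.rst mu M (cl D w u v)) 1 M) := by
  have hΛ0 : 0 < Λ := by linarith
  have hC : 0 < f.ω k * f.K k := lt_of_lt_of_le (by positivity) hC0
  have hm0 := ms_nonneg hmu (cl D w u v)
  have hV := V_pos hmu hMV
  have hmp : 0 < ms mu M (cl D w u v) := by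
    rcases hm0.eq_or_lt with h0 | h0
    · rw [← h0] at hthick
      have : 0 < Real.exp (-a0) * ((v + 1 - u : ℕ) : ℝ) := by positivity
      simp at hthick
      linarith
    · exact h0
  have h1 := h.meik hf hcW hmu hmu0 hq hc hqi hr hD hDD hu hv hMV hqD ha0 ha1 hthick hk hC
    (fun p hp _ => (hcov p hp).2) (T := fun i => if q i ∈ f.W k then f.t k (q i) else 0)
    (fun i => rfl) (half_one fun p hp => (hcov p hp).1) (K := Real.exp (6 * Λ))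
    (Real.one_le_exp (by positivity)) (Real.exp_le_exp.2 hΛD) hq0
  obtain ⟨h2, h3⟩ := mei_num hΛ hC0 ha10 ha hqΛ
  refine MEIK_mono h1 (isLaw_pf r (rst_law hmu hmp)) hT0 (fun i => ?_) (fun i => ?_) h2 h3 le_rfl
  · by_cases h0 : T i = 0
    · rw [h0]
      split_ifs with h4
      · exact hf.ht0 k hk _ h4
      · exact le_rfl
    · obtain ⟨h4, h5⟩ := hT i h0
      simp only [if_pos h4]
      exact h5
  · split_ifs with h4
    · exact hf.ht1 k hk _ h4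
    · exact zero_le_one

theorem LF_pos {m n : ℕ} (hm : 1 ≤ m) (hn : 1 ≤ n) : 0 < LF m n := by
  unfold LF
  have h1 : (0 : ℝ) < m := by exact_mod_cast hm
  have h2 : (0 : ℝ) < n := by exact_mod_cast hn
  have h3 : 0 < Real.log 2 := Real.log_pos (by norm_num)
  positivity

/-- **the field `mei` of `PLaw`** -/
theorem mei_plaw (h : MFld f W c Dm co M mu) (hf : FamOk f Mm)
    (hcW : ∀ p ∈ W, 0 < p ∧ 0 ≤ c p) (hmu : Law mu 1 M) (hmu0 : ∀ n, 0 ≤ mu n)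
    (hq : ∀ i, 0 < q i) (hc : Pairwise fun i j => (q i).Coprime (q j))
    (hqi : Function.Injective q)
    (hr : ∀ i n m, r i n = r i m ↔ n ≡ m [MOD q i])
    {D w u v : ℕ} (hD : 1 ≤ D) (hDD : (D : ℝ) ≤ Real.exp Dm) (hu : 1 ≤ u)
    (hv : v ≤ M) (hMV : (M : ℝ) ≤ Real.exp Dm * ((v + 1 - u : ℕ) : ℝ))
    (hqD : ∀ i, (q i).Coprime D) {a0 a1 : ℝ} (ha0 : a0 ≤ Dm) (ha1 : a0 + co D u v ≤ a1)
    (ha10 : 0 ≤ a1)
    (hthick : Real.exp (-a0) * ((v + 1 - u : ℕ) : ℝ) ≤ D * ms mu M (cl D w u v) * M)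
    (Q : Prm) (S : Finset ι) (es : ι → ℝ)
    (hfam : ∀ m n : ℕ, 1 ≤ m → (m : ℝ) ≤ Real.exp (2 * Q.d1 * Q.p) → 1 ≤ n →
      n * Real.log 2 ≤ Q.C1 * Q.p + 1 → (∃ i ∈ S, es i ≤ n * Real.log 2) →
      ∃ k ∈ f.F, (∀ p ∈ f.W k, p.Coprime D ∧ ∃ i, q i = p) ∧
        10 ≤ LF m n ∧ 40000 * LF m n ^ 2 ≤ f.ω k * f.K k ∧
        72 * a1 * LF m n ^ 2 ≤ f.ω k * f.K k ∧ 6 * LF m n ≤ Dm ∧
        (∃ q0, ∑ R ∈ (f.W k).powerset with ¬ ∏ p ∈ R, p ≤ f.B k, bwt (f.t k) (f.W k) R ≤ q0 ∧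
          1408 * q0 * LF m n ≤ 1) ∧
        ∀ i ∈ S, es i ≤ n * Real.log 2 → q i ∈ f.W k ∧
          H365.rate ((1 - Q.G) * Q.p) (es i) / ((m : ℝ) * n) ^ Q.CK ≤
            f.t k (q i)) :
    ∀ m n : ℕ, 1 ≤ m → (m : ℝ) ≤ Real.exp (2 * Q.d1 * Q.p) → 1 ≤ n →
      n * Real.log 2 ≤ Q.C1 * Q.p + 1 →
      MEIK (tF Q S es m n) (1 / (704 * LF m n)) (1 / LF m n) (Real.exp (6 * LF m n))
        (pf r (Vale.Agent.P042.H945.rst mu M (cl D w u v)) 1 M) := by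
  intro m n hm1 hm2 hn1 hn2
  have hV := V_pos hmu hMV
  have hm0 := ms_nonneg hmu (cl D w u v)
  have hmp : 0 < ms mu M (cl D w u v) := by
    rcases hm0.eq_or_lt with h0 | h0
    · rw [← h0] at hthick
      have : 0 < Real.exp (-a0) * ((v + 1 - u : ℕ) : ℝ) := by positivity
      simp at hthick
      linarith
    · exact h0
  have hLF := LF_pos hm1 hn1
  have h2 : 0 < Real.log 2 := Real.log_pos (by norm_num)
  by_cases hex : ∃ i ∈ S, es i ≤ n * Real.log 2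
  · obtain ⟨k, hk, hcov, h10, hC0, ha, h6, ⟨q0, hq0, hq1⟩, ht⟩ := hfam m n hm1 hm2 hn1 hn2 hex
    refine h.mei_one hf hcW hmu hmu0 hq hc hqi hr hD hDD hu hv hMV hqD ha0 ha1 ha10 hthick hk hcov
      h10 hC0 ha h6 hq0 hq1 (fun i => ?_) fun i hi => ?_
    · unfold tF
      split_ifs
      · have := (H365.rate_pos ((1 - Q.G) * Q.p) (es i)).le
        positivity
      · exact le_rfl
    · unfold tF at hi ⊢
      split_ifs at hi ⊢ with h3
      · exact ht i h3.1 h3.2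
      · exact absurd rfl hi
  · refine meik_zero (isLaw_pf r (rst_law hmu hmp)) (fun i => ?_) (by positivity) (by positivity)
    unfold tF
    rw [if_neg fun h3 => hex ⟨i, h3.1, h3.2⟩]

end core

end Vale.Agent.P042.H103
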