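import Vale.Agent.P042.H742.BState
import Vale.Agent.P042.H599.HBP

/-!
# P042, seam [D] → [B] for the core law: reindexing of one family of multi-coordinate terms

`bhyp_mf`: the family inequality over the subsets `R ⊆ W` with `∏ R ≤ B` and `∏ R` prime to `D`
(Bernoulli weights `bwt t W R`), for the competitors of a law `nu0` of density at most `exp (6 Λ)`,
gives the hypotheses of block [B] for the image of `nu0` on the coordinates `p ∈ W`, `p` prime
to `D`.
-/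

set_option autoImplicit false
set_option linter.unusedSectionVars false

namespace Vale.Agent.P042.H103

open Finset Vale.Agent.P042.H945 Vale.Agent.P042.H858 Vale.Agent.P042.H461 Vale.Agent.P042.H416
  Vale.Agent.P042.H365 Vale.Agent.P042.H678 Vale.Agent.P042.H742
open Vale.Agent.P042.H599 (cm Law bwt bwt_nonneg)

/-- the part of `W` prime to `D` -/
abbrev WD (W : Finset ℕ) (D : ℕ) : Finset ℕ := W.filter fun p => p.Coprime D

/-! ### Bernoulli weights -/

theorem bwt_insert_in {t : ℕ → ℝ} {W R : Finset ℕ} {p : ℕ} (hp : p ∉ W) (hR : R ⊆ W) :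
    bwt t (insert p W) (insert p R) = t p * bwt t W R := by
  unfold bwt
  have h1 : p ∉ R := fun h => hp (hR h)
  have h2 : insert p W \ insert p R = W \ R := by
    ext x
    simp only [mem_sdiff, mem_insert, not_or]
    constructor
    · rintro ⟨h3 | h3, h4, h5⟩
      · exact absurd h3 h4
      · exact ⟨h3, h5⟩
    · rintro ⟨h3, h4⟩
      exact ⟨Or.inr h3, fun h => hp (h ▸ h3), h4⟩
  rw [h2, Finset.prod_insert h1, mul_assoc]

theorem bwt_insert_out {t : ℕ → ℝ} {W R : Finset ℕ} {p : ℕ} (hp : p ∉ W) (hR : R ⊆ W) :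
    bwt t (insert p W) R = (1 - t p) * bwt t W R := by
  unfold bwt
  have h1 : p ∉ R := fun h => hp (hR h)
  have h2 : insert p W \ R = insert p (W \ R) := by
    rw [Finset.insert_sdiff_of_notMem _ h1]
  rw [h2, Finset.prod_insert (fun h => hp (mem_sdiff.1 h).1)]
  ring

/-- marginalisation -/
theorem sum_bwt_inter (t : ℕ → ℝ) (W W' : Finset ℕ) (F : Finset ℕ → ℝ) :
    ∑ R ∈ W.powerset, bwt t W R * F (R ∩ W') =
      ∑ R ∈ (W ∩ W').powerset, bwt t (W ∩ W') R * F R := by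
  induction W using Finset.induction_on generalizing F with
  | empty => simp
  | insert p W hp ih =>
    rw [Finset.sum_powerset_insert hp]
    have h1 : ∀ R ∈ W.powerset, bwt t (insert p W) R * F (R ∩ W') =
        (1 - t p) * (bwt t W R * F (R ∩ W')) := fun R hR => by
      rw [bwt_insert_out hp (mem_powerset.1 hR), mul_assoc]
    have h2 : ∀ R ∈ W.powerset, bwt t (insert p W) (insert p R) * F (insert p R ∩ W') =
        t p * (bwt t W R * F (insert p R ∩ W')) := fun R hR => by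
      rw [bwt_insert_in hp (mem_powerset.1 hR), mul_assoc]
    rw [Finset.sum_congr rfl h1, Finset.sum_congr rfl h2, ← Finset.mul_sum, ← Finset.mul_sum, ih F]
    by_cases hpW : p ∈ W'
    · have h3 : ∀ R : Finset ℕ, insert p R ∩ W' = insert p (R ∩ W') := fun R =>
        Finset.insert_inter_of_mem hpW
      have h4 : ∑ R ∈ W.powerset, bwt t W R * F (insert p R ∩ W') =
          ∑ R ∈ (W ∩ W').powerset, bwt t (W ∩ W') R * F (insert p R) := by
        rw [← ih fun R => F (insert p R)]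
        exact Finset.sum_congr rfl fun R _ => by rw [h3]
      rw [h4, Finset.insert_inter_of_mem hpW,
        Finset.sum_powerset_insert (fun h => hp (mem_inter.1 h).1), Finset.mul_sum, Finset.mul_sum]
      congr 1
      · refine Finset.sum_congr rfl fun R hR => ?_
        rw [bwt_insert_out (fun h => hp (mem_inter.1 h).1) (mem_powerset.1 hR), mul_assoc]
      · refine Finset.sum_congr rfl fun R hR => ?_
        rw [bwt_insert_in (fun h => hp (mem_inter.1 h).1) (mem_powerset.1 hR), mul_assoc]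
    · have h3 : ∀ R : Finset ℕ, insert p R ∩ W' = R ∩ W' := fun R =>
        Finset.insert_inter_of_notMem hpW
      have h4 : ∑ R ∈ W.powerset, bwt t W R * F (insert p R ∩ W') =
          ∑ R ∈ (W ∩ W').powerset, bwt t (W ∩ W') R * F R := by
        rw [← ih F]
        exact Finset.sum_congr rfl fun R _ => by rw [h3]
      rw [h4, Finset.insert_inter_of_notMem hpW]
      ring

theorem bwt_of_sub {t : ℕ → ℝ} {W W' R : Finset ℕ} (hW : W' ⊆ W) (hR : R ⊆ W') :
    bwt t W R = bwt t W' R * ∏ p ∈ W \ W', (1 - t p) := by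
  unfold bwt
  have h1 : W \ R = (W' \ R) ∪ (W \ W') := by
    ext x
    simp only [mem_sdiff, mem_union]
    constructor
    · rintro ⟨h2, h3⟩
      by_cases h4 : x ∈ W'
      · exact Or.inl ⟨h4, h3⟩
      · exact Or.inr ⟨h2, h4⟩
    · rintro (⟨h2, h3⟩ | ⟨h2, h3⟩)
      · exact ⟨hW h2, h3⟩
      · exact ⟨h2, fun h => h3 (hR h)⟩
  have h2 : Disjoint (W' \ R) (W \ W') := by
    rw [Finset.disjoint_left]
    intro x hx hx'
    exact (mem_sdiff.1 hx').2 (mem_sdiff.1 hx).1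
  rw [h1, Finset.prod_union h2, mul_assoc]

/-! ### reindexing -/

/-- the image of a set of coordinates in `ℕ` -/
def im {W : Finset ℕ} (R : Finset ↥W) : Finset ℕ := R.map (Function.Embedding.subtype _)

theorem im_sub {W : Finset ℕ} (R : Finset ↥W) : im R ⊆ W := by
  intro x hx
  unfold im at hx
  rw [Finset.mem_map] at hx
  obtain ⟨y, _, rfl⟩ := hx
  exact y.2

theorem im_inj {W : Finset ℕ} : Function.Injective (im (W := W)) :=
  Finset.map_injective _

theorem prod_im {W : Finset ℕ} (R : Finset ↥W) : ∏ p ∈ im R, p = ∏ i ∈ R, (i : ℕ) := by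
  unfold im
  rw [Finset.prod_map]
  rfl

theorem im_surj {W R : Finset ℕ} (hR : R ⊆ W) : ∃ S : Finset ↥W, im S = R := by
  refine ⟨R.subtype (· ∈ W), ?_⟩
  unfold im
  rw [Finset.subtype_map]
  exact Finset.filter_true_of_mem fun x hx => hR hx

theorem sum_im {W : Finset ℕ} (G : Finset ℕ → ℝ) :
    ∑ R : Finset ↥W, G (im R) = ∑ R ∈ W.powerset, G R := by
  refine Finset.sum_bij (fun R _ => im R) (fun R _ => mem_powerset.2 (im_sub R))
    (fun R _ R' _ h => im_inj h) (fun R hR => ?_) (fun R _ => rfl)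
  obtain ⟨S, hS⟩ := im_surj (mem_powerset.1 hR)
  exact ⟨S, mem_univ _, hS⟩

theorem bw_im (t : ℕ → ℝ) {W : Finset ℕ} (R : Finset ↥W) :
    bw (fun i : ↥W => t i) R = bwt t W (im R) := by
  unfold bw bwt im
  rw [Finset.prod_map]
  congr 1
  have h1 : W \ R.map (Function.Embedding.subtype _) = (Rᶜ).map (Function.Embedding.subtype _) := by
    ext x
    simp only [mem_sdiff, mem_map, mem_compl, Function.Embedding.subtype_apply]
    constructor
    · rintro ⟨h2, h3⟩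
      exact ⟨⟨x, h2⟩, fun h => h3 ⟨_, h, rfl⟩, rfl⟩
    · rintro ⟨y, h2, rfl⟩
      refine ⟨y.2, ?_⟩
      rintro ⟨z, h3, h4⟩
      exact h2 (by rwa [← Subtype.ext h4])
  rw [h1, Finset.prod_map]
  rfl

/-! ### relative entropies -/

variable {x y : ℕ → ℝ} {M : ℕ}

theorem kli_eq_kl2 (h : Vale.Agent.P042.H945.AC y x M) : kli y x 1 M = kl2 y x M := by
  unfold kli kl2 SM
  refine Finset.sum_congr rfl fun i hi => ?_
  by_cases h0 : y (1 + i) = 0
  · simp [h0]
  · have h1 : x (1 + i) ≠ 0 := fun h2 => h0 (h i (mem_range.1 hi) h2)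
    rw [Real.log_div h0 h1]

theorem ac_of_le {K : ℝ} {z : ℕ → ℝ} (hy : Law y 1 M) (hle : ∀ i < M, y (1 + i) ≤ K * z (1 + i)) :
    Vale.Agent.P042.H945.AC y z M := fun i hi h0 => by
  have h1 := hle i hi
  rw [h0, mul_zero] at h1
  exact le_antisymm h1 (hy.nonneg i hi)

theorem ac_trans {z : ℕ → ℝ} (h : Vale.Agent.P042.H945.AC y z M)
    (h' : Vale.Agent.P042.H945.AC z x M) : Vale.Agent.P042.H945.AC y x M :=
  fun i hi h0 => h i hi (h' i hi h0)

/-! ### the seam -/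

/-- the family inequality for the coordinates prime to `D` -/
theorem fam_sub {mu nu0 : ℕ → ℝ} {W : Finset ℕ} {D B : ℕ} {t : ℕ → ℝ} {C0 ac : ℝ}
    (hW0 : ∀ p ∈ W, 0 < p) (ht0 : ∀ p ∈ W, 0 ≤ t p) (ht1 : ∀ p ∈ W, t p ≤ 1)
    (hD : 1 / 2 ≤ ∏ p ∈ W with ¬ p.Coprime D, (1 - t p)) (hC0 : 0 < C0)
    (hmu : Law mu 1 M) (hy : Law y 1 M) (hac' : Vale.Agent.P042.H945.AC y nu0 M)
    (hac0 : Vale.Agent.P042.H945.AC nu0 mu M)
    (H : C0 * ∑ R ∈ W.powerset with ∏ p ∈ R, p ≤ B ∧ (∏ p ∈ R, p).Coprime D,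
      bwt t W R * klc y mu M (∏ p ∈ R, p) ≤ kl2 y nu0 M + ac) :
    ∑ R : Finset ↥(WD W D) with ∏ i ∈ R, (fun j : ↥(WD W D) => (j : ℕ)) i ≤ B,
      bw (fun i : ↥(WD W D) => t i) R * klr y mu 1 M (∏ i ∈ R, (i : ℕ)) ≤
      2 / C0 * (kli y nu0 1 M + ac) := by
  have hac := ac_trans hac' hac0
  have hsub : WD W D ⊆ W := Finset.filter_subset _ _
  -- the left side as a sum over subsets of `ℕ`
  have e1 : ∑ R : Finset ↥(WD W D) with ∏ i ∈ R, (fun j : ↥(WD W D) => (j : ℕ)) i ≤ B,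
      bw (fun i : ↥(WD W D) => t i) R * klr y mu 1 M (∏ i ∈ R, (i : ℕ)) =
      ∑ R ∈ (WD W D).powerset with ∏ p ∈ R, p ≤ B,
        bwt t (WD W D) R * klc y mu M (∏ p ∈ R, p) := by
    rw [Finset.sum_filter, Finset.sum_filter,
      ← sum_im (W := WD W D) fun R => if ∏ p ∈ R, p ≤ B then
        bwt t (WD W D) R * klc y mu M (∏ p ∈ R, p) else 0]
    refine Finset.sum_congr rfl fun R _ => ?_
    rw [← prod_im, bw_im t R, klr_eq_klc hmu hac]
  -- the subsets prime to `D`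
  have hcop : ∀ R ⊆ W, ((∏ p ∈ R, p).Coprime D ↔ R ⊆ WD W D) := fun R hR => by
    rw [Nat.coprime_prod_left_iff]
    constructor
    · intro h p hp
      exact Finset.mem_filter.2 ⟨hR hp, h p hp⟩
    · intro h p hp
      exact (Finset.mem_filter.1 (h hp)).2
  have e2 : ∑ R ∈ W.powerset with ∏ p ∈ R, p ≤ B ∧ (∏ p ∈ R, p).Coprime D,
      bwt t W R * klc y mu M (∏ p ∈ R, p) =
      ∑ R ∈ (WD W D).powerset with ∏ p ∈ R, p ≤ B,
        bwt t W R * klc y mu M (∏ p ∈ R, p) := by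
    refine Finset.sum_congr ?_ fun _ _ => rfl
    ext R
    simp only [Finset.mem_filter, Finset.mem_powerset]
    constructor
    · rintro ⟨h1, h2, h3⟩
      exact ⟨(hcop R h1).1 h3, h2⟩
    · rintro ⟨h1, h2⟩
      exact ⟨h1.trans hsub, h2, (hcop R (h1.trans hsub)).2 h1⟩
  have hWD : W \ WD W D = W.filter fun p => ¬ p.Coprime D := by
    rw [Finset.filter_not]
  have hpos : ∀ R ∈ (WD W D).powerset.filter (fun R => ∏ p ∈ R, p ≤ B),
      (1 / 2 : ℝ) * (bwt t (WD W D) R * klc y mu M (∏ p ∈ R, p)) ≤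
        bwt t W R * klc y mu M (∏ p ∈ R, p) := fun R hR => by
    have h1 : R ⊆ WD W D := Finset.mem_powerset.1 (Finset.mem_filter.1 hR).1
    have h2 : 0 ≤ klc y mu M (∏ p ∈ R, p) := klc_nonneg hy hmu hac
      (Finset.prod_pos fun p hp => hW0 p (hsub (h1 hp)))
    have h3 : 0 ≤ bwt t (WD W D) R :=
      bwt_nonneg (fun p hp => ht0 p (hsub hp)) (fun p hp => ht1 p (hsub hp)) h1
    rw [bwt_of_sub hsub h1, hWD]
    have h4 := mul_le_mul_of_nonneg_right hD (mul_nonneg h3 h2)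
    refine h4.trans (le_of_eq ?_)
    ring
  have h5 := Finset.sum_le_sum hpos
  rw [← Finset.mul_sum, ← e2, ← e1] at h5
  rw [kli_eq_kl2 hac']
  have h6 := mul_le_mul_of_nonneg_left h5 hC0.le
  rw [div_mul_eq_mul_div, le_div_iff₀ hC0]
  linarith

/-- the mass of the large subsets -/
theorem tail_sub {W : Finset ℕ} {D B : ℕ} {t : ℕ → ℝ} {q0 : ℝ}
    (hW0 : ∀ p ∈ W, 0 < p) (ht0 : ∀ p ∈ W, 0 ≤ t p) (ht1 : ∀ p ∈ W, t p ≤ 1)
    (hq0 : ∑ R ∈ W.powerset with ¬ ∏ p ∈ R, p ≤ B, bwt t W R ≤ q0) :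
    ∑ R : Finset ↥(WD W D) with ¬ ∏ i ∈ R, (fun j : ↥(WD W D) => (j : ℕ)) i ≤ B,
      bw (fun i : ↥(WD W D) => t i) R ≤ q0 := by
  have hsub : WD W D ⊆ W := Finset.filter_subset _ _
  have e1 : ∑ R : Finset ↥(WD W D) with ¬ ∏ i ∈ R, (fun j : ↥(WD W D) => (j : ℕ)) i ≤ B,
      bw (fun i : ↥(WD W D) => t i) R =
      ∑ R ∈ (WD W D).powerset, bwt t (WD W D) R * (if ∏ p ∈ R, p ≤ B then 0 else 1) := by
    rw [Finset.sum_filter, ← sum_im (W := WD W D) fun R =>
      bwt t (WD W D) R * (if ∏ p ∈ R, p ≤ B then 0 else 1)]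
    refine Finset.sum_congr rfl fun R _ => ?_
    rw [← prod_im, bw_im t R]
    by_cases h : ∏ p ∈ im R, p ≤ B <;> simp [h]
  have e2 := sum_bwt_inter t W (WD W D) fun R => if ∏ p ∈ R, p ≤ B then 0 else 1
  rw [Finset.inter_eq_right.2 hsub] at e2
  rw [e1, ← e2]
  refine le_trans ?_ hq0
  rw [Finset.sum_filter]
  refine Finset.sum_le_sum fun R hR => ?_
  have h1 := Finset.mem_powerset.1 hR
  have h2 := bwt_nonneg ht0 ht1 h1
  by_cases h3 : ∏ p ∈ R ∩ WD W D, p ≤ B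
  · rw [if_pos h3, mul_zero]
    split_ifs
    · exact le_rfl
    · exact h2
  · rw [if_neg h3, mul_one]
    have h4 : ¬ ∏ p ∈ R, p ≤ B := fun h5 => h3 <| by
      refine le_trans ?_ h5
      refine Nat.le_of_dvd (Finset.prod_pos fun p hp => hW0 p (h1 hp)) ?_
      exact Finset.prod_dvd_prod_of_subset _ _ _ Finset.inter_subset_left
    rw [if_pos h4]

/-- **block [B] for the image of a law `nu0` (a cell of `mu`), from one family of multi-coordinate
entropy terms relative to `mu`** -/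
theorem bhyp_mf {mu nu0 : ℕ → ℝ} {W : Finset ℕ} {D B : ℕ} {t : ℕ → ℝ}
    {V : ↥(WD W D) → Type*} [∀ i, Fintype (V i)] [∀ i, DecidableEq (V i)]
    {lam : ∀ i, V i → ℝ} {Mi : ↥(WD W D) → ℝ} {r : ∀ i, ℕ → V i}
    (hr : ∀ i n m, r i n = r i m ↔ n ≡ m [MOD (i : ℕ)])
    (hW0 : ∀ p ∈ W, 0 < p) (hWc : (W : Set ℕ).Pairwise Nat.Coprime)
    (ht0 : ∀ p ∈ W, 0 < t p) (ht1 : ∀ p ∈ W, t p ≤ 1)
    (hD : 1 / 2 ≤ ∏ p ∈ W with ¬ p.Coprime D, (1 - t p))
    (hmu : Law mu 1 M) (hnu : Law nu0 1 M) (hac : Vale.Agent.P042.H945.AC nu0 mu M)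
    {C0 ac Λ q0 Lr : ℝ} {Dd : ℕ}
    (hq0 : ∑ R ∈ W.powerset with ¬ ∏ p ∈ R, p ≤ B, bwt t W R ≤ q0)
    (H : ∀ y : ℕ → ℝ, Law y 1 M → (∀ i < M, y (1 + i) ≤ Real.exp (6 * Λ) * nu0 (1 + i)) →
      C0 * ∑ R ∈ W.powerset with ∏ p ∈ R, p ≤ B ∧ (∏ p ∈ R, p).Coprime D,
        bwt t W R * klc y mu M (∏ p ∈ R, p) ≤ kl2 y nu0 M + ac)
    (hR : Ref lam Lr) (hI : I1M lam Mi Dd (pf r nu0 1 M)) (hMi : ∀ i, 1 ≤ Mi i)
    (hLr : 1 ≤ Lr) (hDd : 1 ≤ Dd) (hΛ10 : 10 ≤ Λ)
    (hΛ : Dd * (Lr + Real.log ((WD W D).card * Dd)) + 3 ≤ Λ) (hac0 : 0 ≤ ac) (haL : ac ≤ Lr)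
    (hn : 40000 * Λ ^ 2 ≤ C0) (hq' : 1408 * q0 * Λ ≤ 1) :
    BHyp lam (pf r nu0 1 M) (fun i => t i) Mi Lr Λ (1 / (704 * Λ)) Λ (Real.exp (-(3 * Λ))) Dd := by
  have hΛ0 : 0 < Λ := by linarith
  have hC0 : 0 < C0 := lt_of_lt_of_le (by positivity) hn
  have hsub : ∀ i : ↥(WD W D), (i : ℕ) ∈ W := fun i => (Finset.mem_filter.1 i.2).1
  refine bhyp_int (q := fun i : ↥(WD W D) => (i : ℕ)) (fun i => hW0 _ (hsub i)) ?_ hr hnu hmu hac
    (fun i => ht0 _ (hsub i)) (fun i => ht1 _ (hsub i)) (B := B) (q0 := q0) (εs := 2 / C0)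
    (tail_sub hW0 (fun p hp => (ht0 p hp).le) ht1 hq0) (fun y hy hle => ?_) hR hI hMi hLr hDd hΛ10
    ?_ hac0 haL (by positivity) ?_ hq'
  · intro i j hij
    exact hWc (hsub i) (hsub j) fun h => hij (Subtype.ext h)
  · exact fam_sub hW0 (fun p hp => (ht0 p hp).le) ht1 hD hC0 hmu hy (ac_of_le hy hle) hac
      (H y hy hle)
  · rw [Fintype.card_coe]
    exact hΛ
  · rw [show 20000 * (2 / C0) * Λ ^ 2 = 40000 * Λ ^ 2 / C0 by ring, div_le_one hC0]
    exact hn

/-- the part of `W` not prime to `D` is small: `∏ (1 - t p) ≥ 1 / 2` if `t ≤ 1 / (2 n)` on at most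
`n` primes -/
theorem half_le {W : Finset ℕ} {D n : ℕ} {t : ℕ → ℝ} (ht0 : ∀ p ∈ W, 0 ≤ t p)
    (ht1 : ∀ p ∈ W, t p ≤ 1) (hcard : (W.filter fun p => ¬ p.Coprime D).card ≤ n)
    (ht : ∀ p ∈ W, 2 * n * t p ≤ 1) :
    1 / 2 ≤ ∏ p ∈ W with ¬ p.Coprime D, (1 - t p) := by
  have h1 : ∀ S : Finset ℕ, S ⊆ W → 1 - ∑ p ∈ S, t p ≤ ∏ p ∈ S, (1 - t p) := by
    intro S
    induction S using Finset.induction_on with
    | empty => intro _; simp
    | insert p S hp ih =>
      intro hS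
      have h2 := ih fun x hx => hS (Finset.mem_insert_of_mem hx)
      have h3 := ht0 p (hS (Finset.mem_insert_self _ _))
      have h4 := ht1 p (hS (Finset.mem_insert_self _ _))
      have h5 : ∏ x ∈ S, (1 - t x) ≤ 1 := Finset.prod_le_one
        (fun x hx => by have := ht1 x (hS (Finset.mem_insert_of_mem hx)); linarith)
        (fun x hx => by have := ht0 x (hS (Finset.mem_insert_of_mem hx)); linarith)
      rw [Finset.sum_insert hp, Finset.prod_insert hp]
      nlinarith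
  refine le_trans ?_ (h1 _ (Finset.filter_subset _ _))
  rcases Nat.eq_zero_or_pos n with h0 | h0
  · have h2 : W.filter (fun p => ¬ p.Coprime D) = ∅ := by
      rw [← Finset.card_eq_zero]; omega
    rw [h2]; norm_num
  · have hn : (0 : ℝ) < n := by exact_mod_cast h0
    have h2 : ∑ p ∈ W with ¬ p.Coprime D, t p ≤
        (W.filter fun p => ¬ p.Coprime D).card * (1 / (2 * n)) := by
      rw [← nsmul_eq_mul]
      refine Finset.sum_le_card_nsmul _ _ _ fun p hp => ?_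
      rw [le_div_iff₀ (by positivity)]
      have := ht p (Finset.mem_filter.1 hp).1
      linarith
    have h3 : ((W.filter fun p => ¬ p.Coprime D).card : ℝ) * (1 / (2 * n)) ≤ 1 / 2 := by
      have h4 : ((W.filter fun p => ¬ p.Coprime D).card : ℝ) ≤ n := by exact_mod_cast hcard
      calc ((W.filter fun p => ¬ p.Coprime D).card : ℝ) * (1 / (2 * n)) ≤ n * (1 / (2 * n)) :=
            mul_le_mul_of_nonneg_right h4 (by positivity)
        _ = 1 / 2 := by field_simp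
    linarith

end Vale.Agent.P042.H103
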