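import Vale.Agent.P042.H103.MfB
import Vale.Agent.P042.H742.BIntO

/-!
# P042, seam [D] → [B] for the core law, with one extra coordinate

`bhyp_mf_o`: `bhyp_mf` for the coordinates `p ∈ W` prime to `D` and one further coordinate `none`
whose modulus is prime to the elements of `W` (the family does not contain it).
-/

set_option autoImplicit false
set_option linter.unusedSectionVars false

namespace Vale.Agent.P042.H103

open Finset Vale.Agent.P042.H945 Vale.Agent.P042.H858 Vale.Agent.P042.H461 Vale.Agent.P042.H416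
  Vale.Agent.P042.H365 Vale.Agent.P042.H678 Vale.Agent.P042.H742
open Vale.Agent.P042.H599 (cm Law bwt bwt_nonneg)

/-- nothing is lost if all the elements of `W` are prime to `D` -/
theorem half_one {W : Finset ℕ} {D : ℕ} {t : ℕ → ℝ} (h : ∀ p ∈ W, p.Coprime D) :
    1 / 2 ≤ ∏ p ∈ W with ¬ p.Coprime D, (1 - t p) := by
  have h1 : W.filter (fun p => ¬ p.Coprime D) = ∅ :=
    Finset.filter_eq_empty_iff.2 fun p hp h2 => h2 (h p hp)
  rw [h1, Finset.prod_empty]
  norm_num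

theorem WD_eq {W : Finset ℕ} {D : ℕ} (h : ∀ p ∈ W, p.Coprime D) : WD W D = W :=
  Finset.filter_true_of_mem h

variable {M : ℕ}

/-- **block [B] for the image of a law `nu0` (a cell of `mu`), with one extra coordinate**, from one
family of multi-coordinate entropy terms relative to `mu` -/
theorem bhyp_mf_o {mu nu0 : ℕ → ℝ} {W : Finset ℕ} {D B : ℕ} {t : ℕ → ℝ}
    {V : Option ↥(WD W D) → Type*} [∀ i, Fintype (V i)] [∀ i, DecidableEq (V i)]
    {lam : ∀ i, V i → ℝ} {Mi : Option ↥(WD W D) → ℝ} {r : ∀ i, ℕ → V i}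
    {q : Option ↥(WD W D) → ℕ} (hqs : ∀ i : ↥(WD W D), q (some i) = i) (hqn : 0 < q none)
    (hqc : ∀ p ∈ W, p.Coprime D → p.Coprime (q none))
    (hr : ∀ i n m, r i n = r i m ↔ n ≡ m [MOD q i])
    {T : Option ↥(WD W D) → ℝ} (hTs : ∀ i : ↥(WD W D), T (some i) = t i) (hTn0 : 0 < T none)
    (hTn1 : T none ≤ 1)
    (hW0 : ∀ p ∈ W, 0 < p) (hWc : (W : Set ℕ).Pairwise Nat.Coprime)
    (ht0 : ∀ p ∈ W, 0 < t p) (ht1 : ∀ p ∈ W, t p ≤ 1)
    (hD : 1 / 2 ≤ ∏ p ∈ W with ¬ p.Coprime D, (1 - t p))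
    (hmu : Law mu 1 M) (hnu : Law nu0 1 M) (hac : Vale.Agent.P042.H945.AC nu0 mu M)
    {C0 ac Λ q0 Lr : ℝ} {Dd : ℕ}
    (hq0 : ∑ R ∈ W.powerset with ¬ ∏ p ∈ R, p ≤ B, bwt t W R ≤ q0)
    (H : ∀ y : ℕ → ℝ, Law y 1 M → (∀ i < M, y (1 + i) ≤ Real.exp (6 * Λ) * nu0 (1 + i)) →
      C0 * ∑ R ∈ W.powerset with ∏ p ∈ R, p ≤ B ∧ (∏ p ∈ R, p).Coprime D,
        bwt t W R * klc y mu M (∏ p ∈ R, p) ≤ kl2 y nu0 M + ac)
    (hR : Ref lam Lr) (hI : I1M lam Mi Dd (pf r nu0 1 M)) (hMi : ∀ i, 1 ≤ Mi i)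
    (hLr : 1 ≤ Lr) (hDd : 1 ≤ Dd) (hΛ10 : 10 ≤ Λ)
    (hΛ : Dd * (Lr + Real.log (((WD W D).card + 1 : ℕ) * Dd)) + 3 ≤ Λ) (hac0 : 0 ≤ ac)
    (haL : ac ≤ Lr) (hn : 40000 * Λ ^ 2 ≤ C0) (hq' : 1408 * (q0 + T none) * Λ ≤ 1) :
    BHyp lam (pf r nu0 1 M) T Mi Lr Λ (1 / (704 * Λ)) Λ (Real.exp (-(3 * Λ))) Dd := by
  have hΛ0 : 0 < Λ := by linarith
  have hC0 : 0 < C0 := lt_of_lt_of_le (by positivity) hn
  have hsub : ∀ i : ↥(WD W D), (i : ℕ) ∈ W := fun i => (Finset.mem_filter.1 i.2).1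
  have hcop : ∀ i : ↥(WD W D), (i : ℕ).Coprime D := fun i => (Finset.mem_filter.1 i.2).2
  have hqe : (fun i : ↥(WD W D) => q (some i)) = fun i : ↥(WD W D) => (i : ℕ) := funext hqs
  have hTe : (fun i : ↥(WD W D) => T (some i)) = fun i : ↥(WD W D) => t i := funext hTs
  have hprod : ∀ R : Finset ↥(WD W D), ∏ i ∈ R, q (some i) = ∏ i ∈ R, (i : ℕ) := fun R =>
    Finset.prod_congr rfl fun i _ => hqs i
  refine bhyp_int_opt (q := q) ?_ ?_ hr hnu hmu hac ?_ ?_ (B := B) (q0 := q0) (εs := 2 / C0) ?_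
    (fun y hy hle => ?_) hR hI hMi hLr hDd hΛ10 ?_ hac0 haL (by positivity) ?_ hq'
  · intro i
    cases i with
    | none => exact hqn
    | some i => rw [hqs]; exact hW0 _ (hsub i)
  · intro i j hij
    cases i with
    | none =>
      cases j with
      | none => exact absurd rfl hij
      | some j =>
        show (q none).Coprime (q (some j))
        rw [hqs]
        exact (hqc _ (hsub j) (hcop j)).symm
    | some i =>
      cases j with
      | none =>
        show (q (some i)).Coprime (q none)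
        rw [hqs]
        exact hqc _ (hsub i) (hcop i)
      | some j =>
        show (q (some i)).Coprime (q (some j))
        rw [hqs, hqs]
        refine hWc (hsub i) (hsub j) fun h => hij ?_
        rw [Subtype.ext h]
  · intro i
    cases i with
    | none => exact hTn0
    | some i => rw [hTs]; exact ht0 _ (hsub i)
  · intro i
    cases i with
    | none => exact hTn1
    | some i => rw [hTs]; exact ht1 _ (hsub i)
  · simp only [hprod, hTe]
    exact tail_sub hW0 (fun p hp => (ht0 p hp).le) ht1 hq0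
  · simp only [hprod, hTe]
    exact fam_sub hW0 (fun p hp => (ht0 p hp).le) ht1 hD hC0 hmu hy (ac_of_le hy hle) hac
      (H y hy hle)
  · rw [Fintype.card_option, Fintype.card_coe]
    exact hΛ
  · rw [show 20000 * (2 / C0) * Λ ^ 2 = 40000 * Λ ^ 2 / C0 by ring, div_le_one hC0]
    exact hn

end Vale.Agent.P042.H103
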